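import Vale.Agent.P287Q.As.Pole
import Vale.Agent.P287Q.Lz.PkB
import Vale.Agent.P287Q.Us.Bir

/-!
# Theorem B
-/

set_option maxSynthPendingDepth 3

namespace Vale.Agent.P287Q

open Set Function Module TensorProduct P291Z P269 P269.B P269.Ch P269.Loc P269.LG P269.Lz As

theorem Ctr.fib {n : ℕ} {Y : Var n} {c : Ctr Y} (h : c.BlM) :
    ∃ σ, Fib (c.pY h) (fun b => .inl (.inr b)) (Y.A \ c.C) σ := by
  obtain ⟨σ, k⟩ := h.gen
  obtain ⟨y, y1, y2⟩ := c.exists_off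
  refine ⟨σ, Sum.inl_injective.comp Sum.inr_injective, ?_, by simp [Ctr.pY, Ctr.Mπ, blP],
    ⟨_, isOpen_ne_fun (continuous_iff_continuousAt.2 fun x => (an_gv c.g x).continuousAt)
      continuous_const (g := 0), Set.ext fun x => and_congr_right fun a => (c.cut.zero x a).not⟩,
    fun t ht x a => ⟨Y.pv.inv t ht x a.1, fun b => a.2 ((orb_scl ht x).symm.mem c.pv.inv b)⟩,
    ⟨y, y1, fun a => y2 ((c.cut.zero y y1).1 a)⟩, ?_⟩
  · rintro ((j | j) | j) <;> simp [Ctr.Mπ, blP]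
  · have := k.mono (Z := {q | q ∘ .inl ∈ Y.A \ c.C ∧ q ∘ .inr ≠ 0})
      (fun q a => ⟨⟨a.1.1, a.2⟩, fun b => a.1.2 b.1⟩) Subset.rfl
      fun q a => k.mem q ⟨⟨a.1.1, a.2⟩, fun b => a.1.2 b.1⟩
    convert this using 1
    funext j
    cases j <;> rfl

namespace GB

variable {Y : Var 4} {c : Ctr Y} (a : GB c)

theorem mid_pa (I : Inp) : ∃ b : Pa a.t (c.lb 1 0) c.Z, b.pr (c.pY a.h) = c.inc.q := by
  obtain ⟨s, hs⟩ := a.h.mid
  have e : {w | a.t.Lb (c.lb 1 0) w} = c.Mid := Set.ext a.mid_iff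
  have k : ∀ x ∈ c.C, ∃ Φ : _ → c.MJ → ℂ, AnalyticAt ℂ Φ x ∧
      ∀ᶠ y in nhds x, y ∈ c.C → Φ y ∈ c.Mid ∧ Φ y ∘ .inl ∘ .inl = y := fun x hx =>
    (hs.hol x hx).imp fun Φ k => ⟨k.1, k.2.mono fun y b d => b d ▸ ⟨hs.mem y d, hs.inv y d⟩⟩
  obtain ⟨u, h1, h2⟩ := I.pcw _ _ _ _ a.t c.Z (c.lb 1 0) (.inl ∘ .inl) (some ∘ some)
    (c.pY a.h).injR (fun _ => rfl) (e ▸ ⟨a.h.mid_map, k, fun w b w' b' d =>
      (hs.orb w b (a.h.mid_map w b)).symm.trans (d ▸ hs.orb w' b' (a.h.mid_map w' b'))⟩)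
  obtain ⟨b, rfl⟩ := I.pa h1
  refine ⟨b, ContinuousMap.ext (c.Z.pt_surj.forall.2 fun x => ?_)⟩
  have h3 := (a.mid_iff _).2 (hs.mem x.1 x.2)
  have e : x = ⟨_, a.h.mid_map _ (hs.mem x.1 x.2)⟩ := Subtype.ext (hs.inv x.1 x.2).symm
  rw [e]
  exact congrArg (c.pY a.h).q (h2 _ h3)

theorem src_pr (b : En a.src) : b.pr (c.pY a.h) = .id _ :=
  ContinuousMap.ext (Y.pt_surj.forall.2 fun y => (congrArg (c.pY a.h).q (b.j_u y).2).trans
    (congrArg Y.pt (Subtype.ext ((congrArg (_ ∘ ·) a.src_ι.symm).trans (a.src.tors.sec y.1 y.2)))))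

theorem snk_pr (b : En a.snk) : b.pr (c.pY a.h) = c.down.q :=
  ContinuousMap.ext (c.bl.pt_surj.forall.2 fun y => (congrArg (c.pY a.h).q (b.j_u y).2).trans
    (congrArg Y.pt (Subtype.ext (congrArg (· ∘ Sum.inl) (a.snk_ι ▸ a.snk.tors.sec y.1 y.2)))))

end GB

theorem As.sc_span {K H : Type} [Field K] [CommRing H] [Algebra K H] {S : Set H} {y x : H} {c : K}
    (h : ∀ a ∈ S, a * y = c • a) (hx : x ∈ Submodule.span K S) : x * y = c • x := by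
  induction hx using Submodule.span_induction with
  | mem a k => exact h a k
  | zero => simp
  | add a b _ _ p q => rw [add_mul, p, q, smul_add]
  | smul k a _ p => rw [smul_mul_assoc, p, smul_comm]

theorem As.onto_of {K H : Type} [Field K] [CommRing H] [Algebra K H] {S S' : Set H} {e₁ e₂ e₃ x : H}
    (he : e₁ + e₂ + e₃ = 1) (h : e₁ * x ∈ Submodule.span K S) (h' : e₂ * x ∈ Submodule.span K S') :
    x - e₃ * x ∈ Submodule.span K (S ∪ S') := by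
  rw [show x - e₃ * x = e₁ * x + e₂ * x by linear_combination -x * he]
  exact add_mem (Submodule.span_mono subset_union_left h) (Submodule.span_mono subset_union_right h')

theorem As.thmB (I : Inp) (hM : BLM) (hW : WGB) (hE : As.EXC) (hD : As.BLD) (hG : GwEq) :
    Top.THMB := by
  intro Y c ok ok'
  obtain ⟨a⟩ := hW _ Y c ok.prs (hM _ Y c)
  obtain ⟨s⟩ := I.sys _ _ _ a.t
  obtain ⟨σ, f⟩ := Ctr.fib a.h
  obtain ⟨φ, D⟩ := I.dg a.t f
  obtain ⟨b₁⟩ := I.en a.src ok.h20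
  obtain ⟨b₂⟩ := I.en a.snk ok'.h20
  obtain ⟨b₃, e₃⟩ := a.mid_pa I
  obtain ⟨v₁⟩ := Y.conn'.toNonempty
  obtain ⟨v₂⟩ := c.bl.conn'.toNonempty
  obtain ⟨v₃⟩ := c.Z.conn'.toNonempty
  obtain ⟨o, ho, o0⟩ := (I.topc _ Y).1
  obtain ⟨ε, h0, hg⟩ := I.lift s
  obtain ⟨g, g1, g2⟩ := hg 1 (c.lb 0 0)
  obtain ⟨m1, m2, m3, -⟩ := I.mov _ _ _ a.t s
  have hm : c.m ≤ 2 := by have := c.cod; omega
  have t0 : tt ≠ 0 := fun e => tt_tr (e ▸ isAlgebraic_zero)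
  have h₂ : Hev.map (b₂.pr (c.pY a.h)) ⟨o, mem_Hev ho⟩ ≠ 0 := fun e => o0 (c.down_bir.pb_inj (by
    rw [a.snk_pr] at e; exact (congrArg Subtype.val e).trans (map_zero _).symm))
  have M := D.msC I s f (fun _ => rfl) b₁.toPa b₂.toPa
    (fun e => by simpa using c.lb_inj (a.src_ρ.symm.trans (e.trans a.snk_ρ))) v₁ v₂
    (fun ρ w k o => by
      rw [a.src_ρ, a.snk_ρ]
      exact (or_assoc.2 (a.lbl ρ w k)).resolve_right fun e =>
        o.2 (a.h.mid_map w ((a.mid_iff w).1 (e ▸ k)))) (c := ⟨o, mem_Hev ho⟩) ho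
    (fun e => o0 (by
      rw [a.src_pr] at e; exact (H.map_id (fun _ => rfl) o).symm.trans (congrArg Subtype.val e))) h₂
    (D.dot zero_le_one one_pos) g1 g2 (by rw [a.snk_ρ]; simp)
  have z₁ : b₁.z v₁ g = (ε * 2) • tt := (pt_res I.topc b₁.cl (b₁.mem v₁) (g2 _)).trans (by
    rw [a.src_ρ, c.lb_dot]; norm_num)
  have z₃ : b₃.z v₃ g = ε • tt :=
    (pt_res I.topc b₃.cl (b₃.mem v₃) (g2 _)).trans (by simp [c.lb_dot])
  obtain ⟨_, _, E⟩ := b₂.ed I s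
  have := algebraRat.charZero F
  refine b₂.gi.thmB b₂.pcs hG c.down_bir b₁.gi b₁.pcs (Lz.pkB s.Q (S₁ := {none})
    (e₃ := a.t.e (c.lb 1 0)) (z₃ := b₃.z v₃) (j₁ := b₁.j) (j₂ := b₂.j)
    (τ := (Subtype.val : ↥((s.Λ : Set a.t.HH) ∩ a.t.Ty 0) → _)) ⟨M, b₁.nd I s, b₂.nd I s, m1 _,
    (I.lbl _ _ _ a.t).2.2.2.2.2.1 _, fun x hx => onto_of (a.src_ρ ▸ a.snk_ρ ▸ a.sum_e I.lbl)
      (b₁.span (w2_31 ok.h20) hx) (b₂.span (w2_31 ok'.h20) hx),
    fun v _ hy => b₁.sc31 I.topc ok.h20 v₁ v hy, fun v _ hy => b₂.sc31 I.topc ok'.h20 v₂ v hy,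
    fun x hx y hy => sc_span (forall_mem_range.2 fun v => b₃.sc20 I.topc hm v₃ v hy)
      (b₃.span (w2_20 hm) hx), fun v => ⟨_, (m3 _ Y _).1 (Y.i31 v), ?_⟩,
    fun x hx => vm_span (forall_mem_range.2 fun v => m2 _ (b₃.kp.ty _ _ _ (i20_mem v)))
      (b₃.span (w2_20 hm) hx), (hD Y c).trans (by rw [b₃.rank20 hm]),
    ⟨z₃ ▸ smul_ne_zero h0 t0, fun e => ?_⟩, fun x hx => (I.lam _ _ _ a.t s).2.2.2.2.1 x hx _,
    I.sp s 0, fun x => x.2.1, fun x => x.2.2, b₂.pcs.ne,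
    E.sep b₂.pcs (fun x => x.2.2) (Subtype.range_coe.symm ▸ I.sp s 0),
    by rintro _ rfl ⟨r, k⟩; simp [Ctr.pY] at k, fun d h1 h2 x y w => ?_,
    a.pole I hE s f D rfl a.src_ρ a.snk_ρ b₂.toPa b₃ e₃ ho h₂ (fun χ => hg χ _) g1 g2
      (fun v => b₁.e_k _) fun v => b₂.e_k _⟩)
  · rw [b₁.e_cl, a.src_pr]
    exact congrArg b₁.k (Hev.map_id (fun _ => rfl) _).symm
  · have := smul_left_injective ℂ t0 (z₃.symm.trans (e.trans z₁))
    exact h0 (by linear_combination -this)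
  · have k : ∀ r, d (some r) = 0 := fun r => by_contra fun e => by
      simpa using h1 (Finsupp.mem_support_iff.2 e)
    rw [Multiset.insert_eq_cons, Multiset.insert_eq_cons, Multiset.cons_swap]
    refine D.van I s f ho (fun r => k _) (fun n e => h2 ?_) _ _ _
    have e3 : φ (some none) = 1 := D.one
    have e1 := DFunLike.congr_fun e (some none)
    rw [k, Finsupp.smul_apply, e3, smul_eq_mul, mul_one] at e1
    rw [e, ← e1, zero_smul]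

end Vale.Agent.P287Q
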