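import Vale.Agent.P287Q.As.St
import Vale.Agent.P287Q.Top.HG

/-!
# The classes of type `(3, 1)` on a blow-up
-/

namespace Vale.Agent.P287Q.As

theorem bld : BLD := fun _ c => c.finrank31 hgp

end Vale.Agent.P287Q.As
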