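import Vale.Agent.P287Q.Cnt.Prs
import Vale.Agent.P287Q.G.Qrr.Fac
import Vale.Agent.P287Q.G.Map.Well

/-!
# Three-point invariants as integrals over the moduli space
-/

namespace Vale.Agent.P269

open Set Function Filter P291Z Cnt

variable {R J K : Type} [Fintype R] [Fintype J] [Fintype K] [DecidableEq R]
  {F : Fam Empty Empty R J K} {K₀ : RD R} {k D : ℕ}

theorem Cnt.tri3 : Tri (mk0 1 : Ch.Mk (Fin 3 ⊕ Fin 0) (Fin 0)) (mk0 2) (mk0 0) :=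
  ⟨by decide, by decide, by decide, by decide⟩

theorem Fam.Ab.intg3 (h : F.Ab K₀ k D) (g : ℤ) (d : R → ℤ) (v) (a b : H (F.X F.cone))
    {c : H (F.X F.cone)} (hc : c ∈ Ch.Hev _) :
    F.intg (k := k) (D := D) (g := g) (d := d) (u := 0) v (fun m => m.Conn)
      (F.fsF _ 1 ![(0, c), (0, a), (0, b)]) = Loc.intg v (hcls (ind (F.sel fun m => m.Conn)) *
        (F.cl _ (.ev (mk0 1) F.cone a) * F.cl _ (.ev (mk0 2) F.cone b) *
          F.cl _ (.ev (mk0 0) F.cone c))) := by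
  have hz := h.gz (Fin 3 ⊕ Fin 0) g d
  have := h.compact (Fin 3 ⊕ Fin 0) g d
  rw [Fam.intg_sel hz v (h.clopen _ g d) (hz.at_fsF 1 _), hz.prod_fsF, map_one]
  refine congrArg (fun t => Loc.intg v (_ * t)) ((one_mul _).trans ?_)
  have e := Ch.Hev.commute (hz.ins1_mem (mk0 0) 0 hc)
  simp only [Ch.insC, Ch.ins1, List.ofFn_succ, List.ofFn_zero, List.prod_cons, List.prod_nil,
    pow_zero, one_mul, mul_one, Matrix.cons_val_zero, Matrix.cons_val_succ] at e ⊢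
  exact e _

end Vale.Agent.P269

namespace Vale.Agent.P287Q

open Set Function Filter P291Z P269

variable {n m l : ℕ} {V : Var n}

namespace Prs

variable (P : Prs V)

theorem fab {D : ℕ} (hD : P.F.BigD P.k D) : P.F.Ab ⟨n + Fintype.card P.R, P.γ⟩ P.k D :=
  ⟨P.good, P.reg, P.B, P.abs, P.big, hD⟩

/-- **The three-point invariants as integrals.** -/
theorem gw3 (d : P.R → ℤ) (a b : H V.X) {c : H V.X} (hc : c ∈ Ch.Hev V.X) :
    ∃ D, P.F.BigD P.k D ∧ P.gw' d [(0, c), (0, a), (0, b)] =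
      Loc.intg (P.F.vir (Fin 0) P.k D 0 d (0 : Fin 3 ⊕ Fin 0 → P.J → ℕ))
        (hcls (ind (P.F.sel fun m => m.Conn)) * (P.F.cl _ (.ev (mk0 1) P.F.cone (P.pb a)) *
          P.F.cl _ (.ev (mk0 2) P.F.cone (P.pb b)) * P.F.cl _ (.ev (mk0 0) P.F.cone (P.pb c)))) := by
  have k : ∀ j g : ℤ, j + 1 = g → ∃ D, P.F.BigD P.k D ∧ P.F.corP P.k (fun m => m.Conn) 1 d j
      ![(0, P.pb c), (0, P.pb a), (0, P.pb b)] =
      Loc.intg (P.F.vir (Fin 0) P.k D g d (0 : Fin 3 ⊕ Fin 0 → P.J → ℕ))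
        (hcls (ind (P.F.sel fun m => m.Conn)) * (P.F.cl _ (.ev (mk0 1) P.F.cone (P.pb a)) *
          P.F.cl _ (.ev (mk0 2) P.F.cone (P.pb b)) *
            P.F.cl _ (.ev (mk0 0) P.F.cone (P.pb c)))) := by
    rintro j _ rfl
    obtain ⟨D, x, y⟩ := ((P.F.eventually_bigD P.k).and (P.one.corP_ev St.well
      ((P.one.exOk_conn 1).sel _ _ (j + 1) d 0) 1 _)).exists
    exact ⟨D, x, y.trans ((P.fab x).intg3 _ d _ _ _ (Ch.Hev.map P.q ⟨c, hc⟩).2)⟩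
  obtain ⟨D, x, y⟩ := k (-1) 0 rfl
  have e : ([(0, c), (0, a), (0, b)] : List (ℕ × H V.X)).map (Prod.map id P.pb) =
      List.ofFn ![(0, P.pb c), (0, P.pb a), (0, P.pb b)] := by simp
  refine ⟨D, x, Eq.trans ?_ y⟩
  rw [gw', e]
  exact P.F.cor_ofFnP P.k (fun _ _ m => m.Conn) 1 d (-1) _

theorem sum_xt (e : V.R → ℤ) : (fun s => ∑ r, extend P.ρ e 0 r * P.M r s) = e :=
  funext fun s => by
    rw [← Finset.sum_subset (Finset.subset_univ (Finset.univ.map ⟨_, P.tors.inj'⟩))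
      fun r _ h => by rw [extend_apply' _ _ _ (by simpa using h), Pi.zero_apply, zero_mul]]
    simp [P.tors.inj'.extend_apply, P.tors.M_ρ, Pi.single_apply]

theorem pb_lcx (e : V.R → ℤ) : P.pb (V.lc e) = P.F.lc P.F.cone 0 (extend P.ρ e 0) := by
  rw [P.lc_eq, P.sum_xt]

end Prs

/-- **The invariant that counts the lines of a ruling does not vanish.** -/
theorem Rul.gw {Z : Var m} {Y : Var l} {Q : Type} [Fintype Q] [Nonempty Q] {E : Set (V.J → ℂ)}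
    {i : Z.J → V.J} {ρ : Z.R → V.R} {φ : V.R → ℤ} (h : Rul V.π V.A n Z.π Z.A m Q E i ρ φ)
    (P : Prs V) (p : Ext V Y) (j : Ext Z Y) (hj : i ∘ j.iJ = p.iJ) {eA eB eC : V.R → ℤ}
    (wA : eA ⬝ᵥ φ ≠ 0) (wB : eB ⬝ᵥ φ ≠ 0) (wC : eC ⬝ᵥ φ ≠ 0) {a b : H Y.X}
    (hω : H.IsDeg (2 * m) (j.pb (a * b))) (h0 : j.pb (a * b) ≠ 0) :
    P.gw φ [(0, V.lc eC), (0, p.pb a * V.lc eA ^ Fintype.card Q),
      (0, p.pb b * V.lc eB ^ Fintype.card Q)] ≠ 0 := by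
  obtain ⟨D, x, y⟩ := P.gw3 (P.up φ) (p.pb a * V.lc eA ^ Fintype.card Q)
    (p.pb b * V.lc eB ^ Fintype.card Q) (Ch.mem_Hev (k := 1) (V.lc_deg eC))
  have w : ∀ e : V.R → ℤ, e ⬝ᵥ φ ≠ 0 → extend P.ρ e 0 ⬝ᵥ P.up φ ≠ 0 := fun e a => by
    rwa [P.dot_up, P.sum_xt]
  rw [Prs.gw, y, map_mul P.pb, map_mul P.pb, map_pow P.pb, map_pow P.pb, P.pb_lcx, P.pb_lcx, P.pb_lcx]
  exact h.cnt P x Cnt.tri3 p j hj (w _ wA) (w _ wB) (w _ wC) hω h0

end Vale.Agent.P287Q
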