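import Vale.Agent.P287Q.As.St
import Vale.Agent.P287Q.As.Gw3
import Vale.Agent.P287Q.Cnt.GeB
import Vale.Agent.P287Q.Hb.HRg

/-!
# Curves in the exceptional fibres
-/

namespace Vale.Agent.P287Q

open Set Function P291Z P269

theorem TP.up_id {n : ℕ} {B : Var n} {wt} (t : TP B wt) (d : B.R → ℤ) : t.prs.up d = d :=
  funext (t.prs.up_ρ d)

theorem Ctr.inc_lc {n : ℕ} {Y : Var n} (c : Ctr Y) (χ : Y.R → ℤ) :
    c.inc.pb (Y.lc χ) = c.Z.lc χ :=
  (c.inc.pb_lc χ).trans (congrArg _ (extend_id _ _))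

/-- **Curves in the exceptional fibres.** -/
theorem As.exc : As.EXC := by
  intro Y c a
  refine ⟨fun ν _ m d hs hc ht h0 hd z => ?_, fun h => ?_⟩
  · refine (Rul.mem (V := c.W a.h) (P := a.t.prs) c.rul (fun r => ?_) hs hc ht z).2.2.2
    rcases r with _ | r
    · exact iff_of_false (fun e => h0 (funext fun r => r.rec e hd)) (by simp)
    · exact iff_of_true (hd r) (by simp)
  · have : Nonempty (Fin (4 - c.m)) := ⟨⟨0, by omega⟩⟩
    have e : c.inc.pb (1 * Y.lc 1 ^ 2) = c.Z.lc 1 ^ c.m := by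
      rw [one_mul, map_pow, c.inc_lc]
      exact congrArg _ h.symm
    have w : (1 : (c.W a.h).R → ℤ) ⬝ᵥ Pi.single none 1 ≠ 0 := by simp
    have k := Rul.gw (V := c.W a.h) (Z := c.Z) c.rul a.t.prs (c.pY a.h) c.inc rfl w w w
      (a := 1) (b := Y.lc 1 ^ 2) (e ▸ Mono.isDeg_pow (c.Z.lc_deg 1) c.m) (e ▸ fun z => by
        obtain ⟨m, u, v⟩ := c.Z.amp_pos
        rw [z, map_zero] at v
        exact u.ne (Nat.cast_eq_zero.1 v.symm).symm)
    rwa [Prs.gw, TP.up_id, Fintype.card_fin, show 4 - c.m = 2 by omega, map_one, one_mul,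
      map_pow] at k

end Vale.Agent.P287Q
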