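import Vale.Agent.P287Q.As.St
import Vale.Agent.P287Q.Lz.HG
import Vale.Agent.P287Q.G.Qrr.Fac
import Vale.Agent.P287Q.G.Map.Well

/-! The non-equivariant limit of the localised correlators. -/

set_option linter.unusedSectionVars false
set_option linter.style.haveILetI false
set_option maxSynthPendingDepth 3

namespace Vale.Agent.P269.Lz

open Set Function Topology Filter TensorProduct B Vale.Agent.P291Z Vale.Agent.P269.Ch
  Vale.Agent.P269.Loc LG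

section lc

variable {σ : Type} [Fintype σ] {X : ℕ → Type} [∀ M, TopologicalSpace (X M)] {A Y : Type}
  [TopologicalSpace A] [TopologicalSpace Y] (k : ∀ M, C(X M, X (M + 1)))
  (i : ∀ M, C(A × Bs σ M, X M)) (χ : Loc.R σ →ₐ[ℂ] F) (b : C(Y, X 0))

/-- `y` is the restriction of an equivariant lift of `c` -/
def LC (y : F ⊗[ℂ] H A) (c : H Y) : Prop := ∃ α, Lf k i χ α y ∧ H.map b (α 0) = c

variable {k i χ b} {y y' : F ⊗[ℂ] H A} {c c' : H Y}

theorem LC.mul (h : LC k i χ b y c) (h' : LC k i χ b y' c') : LC k i χ b (y * y') (c * c') :=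
  let ⟨_, u, v⟩ := h
  let ⟨_, u', v'⟩ := h'
  ⟨_, u.mul u', v ▸ v' ▸ map_mul _ _ _⟩

theorem LC.one : LC k i χ b 1 1 := ⟨_, .one, map_one _⟩

theorem LC.pow (h : LC k i χ b y c) : ∀ n : ℕ, LC k i χ b (y ^ n) (c ^ n)
  | 0 => by rw [pow_zero, pow_zero]; exact .one
  | n + 1 => by rw [pow_succ, pow_succ]; exact (h.pow n).mul h

theorem LC.prod : ∀ {n : ℕ} {y : Fin n → F ⊗[ℂ] H A} {c : Fin n → H Y},
    (∀ s, LC k i χ b (y s) (c s)) → LC k i χ b (List.ofFn y).prod (List.ofFn c).prod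
  | 0, _, _, _ => by rw [List.ofFn_zero, List.ofFn_zero]; exact .one
  | n + 1, _, _, h => by
    rw [List.ofFn_succ, List.ofFn_succ, List.prod_cons, List.prod_cons]
    exact (h 0).mul (LC.prod fun s => h s.succ)

end lc

variable {R J K σ ν : Type} [Fintype R] [Fintype J] [Fintype K] [Fintype σ] [Fintype ν]
  [DecidableEq R] [DecidableEq σ] {P : TT R J K σ} {K₀ : RD R} {k D : ℕ} {g : ℤ}
  {d : R → ℤ} {a : σ → ℂ}

namespace Geo

section gen

variable {τ : Md P ν g d} (G : Geo k D a τ) (hP : P.Ok K₀ k D)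
  {O : Set ((P.ch ν k D g d).WF ν (Fin 0) Empty)} {N : ℕ} (h : P.As K₀ O N)

/-- restrictions of equivariant lifts -/
abbrev LC := Lz.LC (fun M => (h.lv M).inc (h.lv (M + 1))) G.iM (chiA a) (h.lv 0).base

include hP

theorem lc_psi (n : ν) : G.LC h (inF _ (τ.ψ n)) (hcls (psiF (.inl n))) :=
  ⟨_, G.lf_psi hP h n, h.base_psi _⟩

theorem lc_ev (t : TG P a) {b : C(P.E.X P.E.cone, P.XE 0)}
    (hb : ∀ z : P.E.cone, ∃ h, b (Quo.mk _ z) = Quo.mk _ ⟨(1, z.1.2), h⟩) (n : ν) {y c}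
    (e : Lz.LC t.k t.i (chiA a) b y c) : G.LC h (pb F (τ.ev n) y) (H.map (h.ev0 (.inl n)) c) := by
  obtain ⟨α, u, rfl⟩ := e
  refine ⟨_, G.lf_ev hP h t n u, ?_⟩
  rw [H.map_map, H.map_map]
  refine congrArg (H.map · _) (ContinuousMap.ext fun z => ?_)
  obtain ⟨x, rfl⟩ := Tq.mk_surj z
  exact (hb ⟨vl x.1 (.inl n), vl_mem x.2.1 _⟩).2.symm

theorem lc_same {Q : AM1 R J ν → Prop} (hQ : ∀ m m', m.Same m' → Q m → Q m') :
    G.LC h (inF _ (τ.id Q)) (hcls (fn ((P.E.sel Q : Set (P.X0 ν k D g d)).indicator 1))) := by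
  refine ⟨_, G.lf_same hP h hQ, HGP.map_ind _ (clopen_sl hP hQ 0) (Set.ext fun z => ?_)⟩
  obtain ⟨⟨x, hx⟩, rfl⟩ := Tq.mk_surj z
  obtain ⟨m, r⟩ := (Fam.chart_lat (F := P.E) hP.bigD).exists_rep_sol hx.1
  exact (mem_sl hQ ⟨⟨_, (h.lv 0).mem_pm hx PM.one⟩, rfl, rep_μA.2 r⟩).trans
    (Fam.mem_sel (fun _ _ e => hQ _ _ e.same) r).symm

theorem loc_lc (ha : LinearIndependent ℚ a) {y c} (e : G.LC h y c) : ∃ q : Polynomial ℂ,
    Polynomial.aeval tt q = τ.I y ∧ q.coeff 0 = intg (P.E.vir (Fin 0) k D g d 0) c :=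
  let ⟨_, u, v⟩ := e
  v ▸ hP.vir_E h ▸ G.loc_lf hP h ha u

end gen

/-- **the non-equivariant limit** -/
theorem lim {n : ℕ} {τ : Md P (Fin n ⊕ Fin 0) g d} (G : Geo k D a τ) (hP : P.Ok K₀ k D)
    {O : Set ((P.ch (Fin n ⊕ Fin 0) k D g d).WF _ (Fin 0) Empty)} {N : ℕ} (h : P.As K₀ O N)
    (ha : LinearIndependent ℚ a) (t : TG P a) {b : C(P.E.X P.E.cone, P.XE 0)}
    (hb : ∀ z : P.E.cone, ∃ h, b (Quo.mk _ z) = Quo.mk _ ⟨(1, z.1.2), h⟩)
    {x : Fin n ⊕ Fin 0 → ℕ × F ⊗[ℂ] Hev P.X} {c : Fin n → H (P.E.X P.E.cone)}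
    (e : ∀ s, Lz.LC t.k t.i (chiA a) b (inF _ (x (.inl s)).2) (c s)) : ∃ q : Polynomial ℂ,
    Polynomial.aeval tt q = τ.I (inF _ (τ.id (fun m => m.Conn) *
      ∏ s, τ.ψ s ^ (x s).1 * pbE (τ.ev s) (x s).2)) ∧
    q.coeff 0 = intg (P.E.vir (Fin 0) k D g d 0)
      (hcls (fn ((P.E.sel fun m => m.Conn : Set (P.X0 _ k D g d)).indicator 1)) *
        (List.ofFn fun s => hcls (psiF (.inl (.inl s))) ^ (x (.inl s)).1 *
          H.map (h.ev0 (.inl (.inl s))) (c s)).prod) := by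
  refine G.loc_lc hP h ha ?_
  rw [Fintype.prod_sum_type, Fin.prod_univ_zero, mul_one, ← List.prod_ofFn, map_mul,
    map_list_prod, List.map_ofFn]
  refine (G.lc_same hP h fun _ _ => AM.Same.conn).mul (LC.prod fun s => ?_)
  rw [comp_apply, map_mul, map_pow, ← pb_inF]
  exact ((G.lc_psi hP h _).pow _).mul (G.lc_ev hP h t hb _ (e s))

end Geo

end Vale.Agent.P269.Lz

namespace Vale.Agent.P287Q

open Set Function Topology Filter TensorProduct P291Z P269 P269.B P269.Ch P269.Loc P269.LG P269.Lz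

/-- the invariants as integrals, at every level -/
theorem Prs.gw_lvl {n m : ℕ} {V : Var n} (P : Prs V) {D : ℕ} (hD : P.F.BigD P.k D) (hc : P.F.Cp)
    (d : P.R → ℤ) (f : Fin m → ℕ × H V.X)
    (hz : Ch.GZ P.F ℓs (P.F.Zs (Fin 0) P.k D 0 d (0 : Fin m ⊕ Fin 0 → P.J → ℕ)))
    [CompactSpace (P.F.Mod (Fin 0) P.k D 0 d (0 : Fin m ⊕ Fin 0 → P.J → ℕ))] :
    P.gw' d (List.ofFn f) = Loc.intg (P.F.vir (Fin 0) P.k D 0 d (0 : Fin m ⊕ Fin 0 → P.J → ℕ))
      (hcls (ind (P.F.sel fun m => m.Conn)) * insC P.F _ fun s => ((f s).1, P.pb (f s).2)) := by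
  have c := Fam.isClopen_sel_of_same (F := P.F) (ν := Fin m ⊕ Fin 0) (κ := Fin 0) (g := 0) (d := d)
    (u := 0) hD fun _ _ => AM.Same.conn
  rw [Prs.gw', List.map_ofFn]
  refine (P.F.cor_ofFnP P.k (fun _ _ m => m.Conn) 1 d (-1) _).trans ?_
  refine (P.nice.inv_eq (u := 0) (g := 0) hc P.big hD (fun _ _ e => e.same.conn) c
    (Wt.fsF_ok 1 _ _) (fun q => q.elim0) hD).trans ?_
  refine (Fam.intg_sel hz _ c (hz.at_fsF 1 _)).trans ?_
  rw [hz.prod_fsF, map_one]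
  exact congrArg (fun t => Loc.intg _ (_ * t)) (one_mul _)

/-- **The non-equivariant limit.** -/
theorem As.cst : As.CST := fun n B wt t s d l hl => by
  obtain ⟨m, f, rfl⟩ : ∃ m, ∃ f : Fin m → _, l = List.ofFn f := ⟨_, _, (List.ofFn_get l).symm⟩
  obtain ⟨_, h⟩ := t.ok.exists_as (Fin m ⊕ Fin 0) 0 fun r => d r
  haveI := h.cZ
  let x : Fin m ⊕ Fin 0 → ℕ × t.HH := Sum.elim (fun i => ((f i).1, (f i).2.1)) Fin.elim0
  obtain ⟨q, u, v⟩ := (s.G (Fin m ⊕ Fin 0) 0 fun r => d r).lim t.ok h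
    (linearIndependent_unique_iff.2 one_ne_zero) s.g s.b_mk (x := x)
    (c := fun i => t.prs.pb (f i).2.2) fun i => hl _ (List.mem_ofFn.2 ⟨i, rfl⟩)
  refine ⟨q, Eq.trans ?_ ((s.C _ d ∅ x).trans (Eq.trans ?_ u.symm)), v.trans ?_⟩
  · rw [Finset.compl_empty, ← Finset.univ_disjSum_univ, Finset.val_disjSum, Multiset.disjSum,
      Multiset.map_add, Multiset.map_map, Multiset.map_map, Fin.univ_val_map, Fin.univ_val_map,
      List.map_ofFn, List.ofFn_zero, Multiset.coe_nil, add_zero]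
    rfl
  · rw [Finset.coe_empty, funext fun m => propext (and_iff_left com_empty)]
    rfl
  · rw [List.map_ofFn, t.prs.gw_lvl t.ok.bigD TT.cp_E _ _ h.gz0, ind_eq_fn]
    exact congrArg (fun y => Loc.intg _ (_ * (List.ofFn y).prod)) (funext fun i =>
      congrArg (_ * ·) (h.gz0.hcls_evF _ _).symm)

end Vale.Agent.P287Q
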