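import Vale.Agent.P287Q.As.St
import Vale.Agent.P287Q.As.Gw3
import Vale.Agent.P287Q.Cnt.GeA

/-!
# Curves in the general fibre of a master space
-/

namespace Vale.Agent.P287Q

open Set Function Topology Filter P291Z P269 P269.Cnt

theorem Fib.genF {n : ℕ} {B : Var (n + 1)} {X : Var n} {π : Ext B X} {ab O σ} (h : Fib π ab O σ) :
    GenF π ab O σ :=
  let ⟨_, a, b⟩ := h.opn
  ⟨h.blk, h.off, b ▸ inter_subset_left, fun _ c => b ▸ inter_mem_nhdsWithin _
    (a.mem_nhds (b.le c).2), h.inv, h.ne, h.gen⟩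

theorem TP.up_eq {n : ℕ} {B : Var n} {wt} (t : TP B wt) (d : B.R → ℤ) : t.prs.up d = d :=
  funext (t.prs.up_ρ d)

theorem As.fib : As.FIB := fun n B X wt t π ab O σ f => by
  have h := f.genF
  let φ : B.R →₀ ℕ := Finsupp.equivFunOnFinite.symm fun r => (h.deg r).toNat
  have e : (fun r => (φ r : ℤ)) = h.deg := funext fun r => Int.toNat_of_nonneg (h.deg_nonneg r)
  refine ⟨φ, Int.natCast_inj.1 ((congrFun e _).trans h.deg_ab),
    fun r => Int.natCast_inj.1 ((congrFun e _).trans (h.deg_iR r)),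
    fun ν _ m d hs hc ht h0 z hz => ?_, fun c hc h0 χ hχ => ?_⟩
  · obtain ⟨k, a⟩ := (h.fbl hz).deg (P := t.prs) π.injR π.blk h0 hs hc ht ⟨1, isUnit_one,
      (scl_one _).symm⟩
    exact ⟨k, by rw [a, t.up_eq, ← e]; rfl⟩
  · rw [e] at hχ ⊢
    have r : ∀ x, (Ext.refl X).pb x = x := H.map_id fun z => by
      obtain ⟨z, rfl⟩ := Tq.mk_surj z
      rfl
    have := h.rul.gw t.prs π (.refl X) rfl (a := 1) (b := c) hχ hχ hχ (by rwa [one_mul, r])
      (by rwa [one_mul, r])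
    rwa [Prs.gw, t.up_eq, Fintype.card_unit, pow_one, map_one, one_mul] at this

end Vale.Agent.P287Q
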