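import Vale.Agent.P287Q.Top.Off
import Vale.Agent.P287Q.Pcs.Com
import Vale.Agent.P287Q.Pcs.Desc

/-!
# P287: from the pieces of a presentation to the algebra of two-point operators
-/

set_option linter.unusedSectionVars false

namespace Vale.Agent.P287Q

open Set Function Module P291Z P269 P269.Ch Pcs

/-- The invariants do not depend on the presentation. -/
def GwEq : Prop := ∀ (n : ℕ) (V : Var n) (P P' : Prs V) d l, P.gw d l = P'.gw d l

variable {V W : Var 4}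

theorem Var.Hg_ev {p q : ℕ} {x : H V.X} (h : x ∈ V.Hg p q) (k : ℕ) (e : p + q = 2 * k) :
    x ∈ Hev V.X := by
  have := V.Hg_deg h
  rw [e, Nat.cast_mul] at this
  exact mem_Hev this

/-- The classes of type `(3, 1)` as even classes. -/
noncomputable def Var.i31 (V : Var 4) : V.Hg 3 1 →ₗ[ℂ] Hev V.X where
  toFun x := ⟨x.1, Var.Hg_ev x.2 2 rfl⟩
  map_add' _ _ := rfl
  map_smul' _ _ := rfl

theorem Var.i31_val (x : V.Hg 3 1) : (V.i31 x).1 = x.1 := rfl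

theorem Var.pp_ev {x : H V.X} (h : x ∈ V.pp) : x ∈ Hev V.X :=
  Submodule.iSup_induction (motive := (· ∈ Hev V.X)) _ h
    (fun p _ k => Var.Hg_ev k p (two_mul p).symm) (zero_mem _) fun _ _ => add_mem

/-- `G` is the package of the invariants of `P`. -/
structure Prs.Gi (P : Prs V) (G : Gw (Hev V.X) P.R) : Prop where
  η : ∀ x, G.η x = V.int x.1
  T : ∀ p q x, x ∈ G.T p q ↔ x.1 ∈ V.T p q
  cj : ∀ x, (G.cj x).1 = Mono.cj x.1
  C : ∀ d (l : List (ℕ × Hev V.X)), G.C d l = P.gw' (fun r => d r) (l.map (Prod.map id Subtype.val))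
  pos : ∀ d l, P.gw' d l ≠ 0 → 0 ≤ d

namespace Prs.Gi

variable {P : Prs V} {G : Gw (Hev V.X) P.R} (h : P.Gi G)
include h

theorem mem (p q : ℕ) (x : Hev V.X) : x ∈ G.T p q ↔ x.1 ∈ V.Hg p q :=
  (h.T p q x).trans (by rw [V.Hg_eq])

theorem fr : G.Fr V.i31 :=
  ⟨fun _ _ e => Subtype.ext (congrArg (fun z : Hev V.X => z.1) e), Submodule.ext fun x =>
    ⟨fun ⟨y, e⟩ => (h.mem 3 1 x).2 (e ▸ y.2), fun a => ⟨⟨_, (h.mem 3 1 x).1 a⟩, rfl⟩⟩⟩

theorem tp (x : Hev V.X) : x ∈ G.Tp ↔ x.1 ∈ V.pp := by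
  refine ⟨fun a => (iSup_le (a := V.pp.comap (Hev V.X).val.toLinearMap) fun p y k => ?_) a,
    fun a => ?_⟩
  · by_cases e : 0 ≤ p
    · obtain ⟨p, rfl⟩ := Int.eq_ofNat_of_zero_le e
      exact Submodule.mem_iSup_of_mem (p := fun p => V.Hg p p) p ((h.mem p p y).1 k)
    · have := (h.T p p y).1 k
      rw [Var.T, Hb.QT, Hb.HT, if_neg (by omega), Submodule.mem_bot] at this
      exact (show y.1 ∈ V.pp from this ▸ zero_mem _)
  · obtain ⟨y, b, e⟩ := (iSup_le (a := G.Tp.map (Hev V.X).val.toLinearMap) fun p y k =>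
      ⟨⟨y, Var.pp_ev (Submodule.mem_iSup_of_mem (p := fun p => V.Hg p p) p k)⟩,
        G.mem_Tp ((h.mem p p _).2 k), rfl⟩) a
    exact Subtype.ext e ▸ b

theorem η_mul (x : V.Hg 3 1) (y : Hev V.X) : G.η (V.i31 x * y) = V.int (x.1 * y.1) := by
  rw [h.η, Subalgebra.coe_mul, Var.i31_val]

theorem C_two (d : P.R →₀ ℕ) (l : List (ℕ × Hev V.X)) (x y : Hev V.X) :
    G.C d ((0, x) ::ₘ (0, y) ::ₘ l) =
      P.gw' (fun r => d r) ((0, x.1) :: (0, y.1) :: l.map (Prod.map id Subtype.val)) :=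
  h.C d ((0, x) :: (0, y) :: l)

theorem op_iff (d : P.R →₀ ℕ) (l : List (ℕ × Hev V.X)) (A : End ℂ (V.Hg 3 1)) :
    G.IsOp V.i31 d 0 0 l A ↔ ∀ x : V.Hg 3 1, ∀ y ∈ V.Hg 1 3, V.int ((A x).1 * y) =
      P.gw' (fun r => d r) ((0, x.1) :: (0, y) :: l.map (Prod.map id Subtype.val)) := by
  refine ⟨fun a x y hy => ?_, fun a x y hy => ?_⟩
  · have := a x ⟨y, Var.Hg_ev hy 2 rfl⟩ ((h.mem 1 3 _).2 hy)
    rwa [h.η_mul, h.C_two] at this
  · rw [h.η_mul, h.C_two]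
    exact a x y.1 ((h.mem 1 3 y).1 hy)

theorem eq_zero {A : End ℂ (V.Hg 3 1)} (a : ∀ x : V.Hg 3 1, ∀ y ∈ V.Hg 1 3,
    V.int ((A x).1 * y) = 0) : A = 0 :=
  h.fr.ext fun x y hy => by
    rw [h.η_mul, a x y.1 ((h.mem 1 3 y).1 hy), LinearMap.zero_apply, map_zero, zero_mul, map_zero]

theorem alg_le : G.alg V.i31 univ ≤ V.alg := by
  refine Algebra.adjoin_le ?_
  rintro A ⟨d, -, ⟨l⟩, h1, -, h2⟩
  have h3 := (h.op_iff d l A).1 h2
  by_cases k : (fun r => (d r : ℤ)) = P.up ((fun r => (d r : ℤ)) ∘ P.ρ)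
  · exact Algebra.subset_adjoin ⟨P, _, l.map (Prod.map id Subtype.val),
      List.forall_mem_map.2 fun x hx => (h.tp _).1 (h1 x hx), fun x y hy => by
        rw [Prs.gw, ← k, h3 x y hy]⟩
  · rw [h.eq_zero fun x y hy => (h3 x y hy).trans (by_contra fun a => k (P.off a))]
    exact zero_mem _

theorem alg_eq (hE : GwEq) : G.alg V.i31 univ = V.alg := by
  refine h.alg_le.antisymm (Algebra.adjoin_le ?_)
  rintro A ⟨P', d, l, h1, h2⟩
  by_cases k : 0 ≤ P.up d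
  · obtain ⟨l, rfl⟩ : ∃ l' : List (ℕ × Hev V.X), l'.map (Prod.map id Subtype.val) = l :=
      ⟨l.pmap (fun x hx => (x.1, ⟨x.2, Var.pp_ev hx⟩)) h1, by simp [List.map_pmap]⟩
    refine h.fr.ops_le isLowerSet_univ ⟨Finsupp.equivFunOnFinite.symm fun r => (P.up d r).toNat,
      trivial, 0, 0, l, fun x hx => (h.tp _).2 (h1 _ (List.mem_map_of_mem hx)),
      (h.op_iff _ l A).2 fun x y hy => ?_⟩
    rw [h2 x y hy, hE _ _ P' P]
    exact congrArg (P.gw' · _) (funext fun r => (Int.toNat_of_nonneg (k r)).symm)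
  · rw [h.eq_zero fun x y hy => (h2 x y hy).trans ((hE _ _ P' P _ _).trans
      (by_contra fun a => k (h.pos _ _ a)))]
    exact zero_mem _

variable {m : ℕ} {π : Fin m → End ℂ (V.Hg 3 1)} {χ} (p : G.Pieces V.i31 π χ)
include p

/-- **The end of Theorem A.** -/
theorem prj (f : Ext V W) {T : Finset (Fin m)}
    (e : LinearMap.range (∑ g ∈ T, π g) = f.im.comap (V.Hg 3 1).subtype) :
    Top.Prj f (∑ g ∈ T, π g) := by
  have r : ∀ y, ((∑ g ∈ T, π g) y).1 ∈ f.im := fun y => e.le (LinearMap.mem_range_self _ y)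
  have i : ∀ y : V.Hg 3 1, y.1 ∈ f.im → (∑ g ∈ T, π g) y = y := fun y hy => by
    obtain ⟨z, rfl⟩ := e.ge hy
    exact LinearMap.congr_fun (p.coi.toOrthogonalIdempotents.isIdempotentElem_sum (s := T)).eq z
  refine ⟨h.alg_le (sum_mem fun g _ => p.mem g), r, i, fun y hy => h.fr.inj ?_⟩
  have a : ∀ x y, G.η (V.i31 ((∑ g ∈ T, π g) x) * G.cj (V.i31 y)) =
      G.η (V.i31 x * G.cj (V.i31 ((∑ g ∈ T, π g) y))) := fun x y => by
    simp only [LinearMap.sum_apply, map_sum, Finset.sum_mul, Finset.mul_sum, p.adj]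
  refine (G.hr _ (h.fr.mem _) ?_).trans (map_zero _).symm
  obtain ⟨x, -, b⟩ := r y
  rw [a, i _ (r y), h.η, ← hy (Mono.cj x)]
  refine congrArg (fun z => V.int (y.1 * z)) ?_
  rw [h.cj, Var.i31_val, ← b]
  exact Mono.cj_map _ _

theorem le_rank : m ≤ finrank ℂ V.alg :=
  haveI := V.fin
  haveI : Module.Finite ℂ V.alg := .of_injective V.alg.val.toLinearMap Subtype.val_injective
  p.rank ▸ LinearMap.finrank_le_finrank_of_injective
    (f := (Subalgebra.inclusion h.alg_le).toLinearMap) (Subalgebra.inclusion_injective h.alg_le)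

theorem rank_eq (hE : GwEq) : finrank ℂ V.alg = m := h.alg_eq hE ▸ p.rank

open Classical in
/-- **The end of Theorem B.** -/
theorem thmB (hE : GwEq) {f : Ext V W} (hf : f.Bir) {P' : Prs W} {G' : Gw (Hev W.X) P'.R}
    (h' : P'.Gi G') {m' : ℕ} {π' : Fin m' → End ℂ (W.Hg 3 1)} {χ'} (p' : G'.Pieces W.i31 π' χ')
    (e : Fintype.card (Fin m) ≤ Fintype.card (Fin m') +
      if finrank ℂ (V.Hg 3 1) = finrank ℂ (W.Hg 3 1) then 0 else 1) :
    finrank ℂ V.alg ≤ finrank ℂ W.alg + if f.im = V.Hg 3 1 then 0 else 1 := by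
  have a := h'.le_rank p'
  rw [Fintype.card_fin, Fintype.card_fin] at e
  rw [h.rank_eq p hE]
  by_cases k : f.im = V.Hg 3 1
  · rw [if_pos (k ▸ (Submodule.equivMapOfInjective _ hf.pb_inj _).finrank_eq.symm)] at e
    omega
  · rw [if_neg k]
    split_ifs at e <;> omega

end Prs.Gi

end Vale.Agent.P287Q
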