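import Vale.Agent.P287Q.As.St
import Vale.Agent.P287Q.Pcs.Inst

/-! The package of invariants of an end. -/

namespace Vale.Agent.P287Q

open P269 P269.Lz

variable {n m : ℕ} {B : Var n} {wt : B.J → Unit → ℤ} (t : TP B wt)

theorem TP.nef_of {z} (h : z ∈ t.P.E.cone) (r : B.R) :
    ∃ j, t.P.w j = Pi.single r 1 ∧ z.2 j ≠ 0 :=
  let ⟨j, a, b⟩ := B.pv.sub (t.tors.maps z h) r
  ⟨t.ι j, a ▸ t.tors.w j, b⟩

theorem TP.nef : t.prs.Nef := fun _ h => t.nef_of h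

theorem TP.End.nef {t : TP B wt} {V : Var m} (e : t.End V) : e.prs.Nef :=
  fun _ h => t.nef_of (TT.fix_sub (t.P.cone_V _ h))

theorem As.gi (hH : Pcs.HDG) (hT : Pcs.TRN) : As.GI := fun _ _ _ V e h =>
  (Prs.exists_gi hH hT V h e.prs e.nef).imp fun _ => And.left

end Vale.Agent.P287Q
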