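import Vale.Agent.P287Q.As.St
import Vale.Agent.P287Q.Lz.Glob

/-! The global correlators respect the weights. -/

set_option linter.unusedSectionVars false
set_option maxSynthPendingDepth 3

namespace Vale.Agent.P287Q.As

open Set Function Topology Filter TensorProduct P291Z P269 P269.B P269.Ch P269.Loc P269.LG P269.Lz

theorem glob_li : LinearIndependent ℚ a₁ := linearIndependent_unique_iff.2 one_ne_zero

theorem glob (hI : H3.Inp) (hc : H3.StC1) : GLOB := fun n B wt t s h d l hl hw => by
  induction l using Quotient.inductionOn with | _ L => ?_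
  have e : ∀ {β : Type} (f : ℤ × ℕ × t.HH → β), Multiset.map f ⟦L⟧ =
      Finset.univ.val.map fun i => f (L.get i) := fun f => by
    rw [Fin.univ_val_map, ← Function.comp_def, ← List.map_ofFn, List.ofFn_get]
    rfl
  have := s.C (Fin L.length) d ∅ fun i => (L.get i).2
  rw [Finset.empty_val, Multiset.map_zero, Finset.compl_empty, ← e] at this
  rw [e] at hw
  refine this.trans (Eq.trans ?_ ((s.G _ 0 fun r => d r).glob hI hc t.ok glob_li s.g
    (x := fun i => (L.get i).2) (w := fun i => (L.get i).1) (fun i => ?_) hw))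
  · exact congrArg (fun u => (s.T _ 0 fun r => d r).Je (u * _)) (Md.id_congr _ fun m _ =>
      and_iff_left fun a ha => by simp at ha)
  · refine Submodule.span_mono ?_ (h _ ▸ hl _ (List.get_mem L i) :
      _ ∈ Submodule.span F (s.Tw (L.get i).1))
    rintro y ⟨α, ⟨-, x, h1, h2⟩, h3⟩
    exact ⟨α, x, fun M => t.ok.wc M _ (h3 M), h1, h2⟩

end Vale.Agent.P287Q.As
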