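import Vale.Agent.P287Q.As.PC
import Vale.Agent.P287Q.Lam.TyA
import Vale.Agent.P287Q.Lam.Fx

/-!
# The parts of the fixed locus
-/

set_option linter.unusedSectionVars false
set_option linter.style.haveILetI false

namespace Vale.Agent.P287Q

open Set Function Topology Filter TensorProduct P291Z P269 P269.Holo P269.Lz P269.Tq P269.Mono
  P269.Ch P269.LG

variable {n : ℕ} {B : Var n} {wt : B.J → Unit → ℤ} (t : TP B wt) (ρ : Unit → B.R → ℤ)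

namespace TP

theorem V_act (a) (ha : IsUnit a) (z) (hz : z ∈ (t.P.V ρ).E.cone) :
    t.P.E.actT a z ∈ (t.P.V ρ).E.cone :=
  have b := TT.mem_zro_E.1 hz
  TT.mem_zro_E.2 ⟨t.ok.good.cone_act ha b.1, TT.ovP_act (ρ := ρ) b.2 _⟩

theorem fp_V : FP t.P.E.actT (t.P.V ρ).E.cone :=
  t.ok.good.fp_of (fun _ h => (TT.mem_zro_E.1 h).1) (t.V_act ρ)
    ((Set.ext fun _ => TT.mem_zro_E : (t.P.V ρ).E.cone = t.P.E.cone ∩ _) ▸
      t.ok.good.lc_cone.inter (TT.isClosed_ovP ρ).isLocallyClosed)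

theorem ev_V {z} (h : z ∈ (t.P.V ρ).E.cone) :
    ∀ᶠ y in 𝓝 z, y ∈ (t.P.V ρ).E.cone ↔ y ∈ t.P.Fix :=
  ((Continuous.tendsto (f := fun y : (Empty → ℂ) × (t.J → ℂ) => y.2 ∘ t.ι) (by fun_prop)
    z).eventually (t.mem_V.1 h).1.ev).mono fun _ a => ⟨fun b => t.P.cone_V ρ b, fun b =>
      let ⟨⟨_, c⟩, d⟩ := t.mem_Fix.1 b
      t.mem_V.2 ⟨a _ c ▸ c, d⟩⟩

theorem clopen_V : IsClopen (Subtype.val ⁻¹' (t.P.V ρ).E.cone : Set t.P.Fix) :=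
  have e : (Subtype.val ⁻¹' (t.P.V ρ).E.cone : Set t.P.Fix) =
      Subtype.val ⁻¹' {z | OvP t.P.E.toWt t.P.wt z.2 ρ} :=
    Set.ext fun z => TT.mem_zro_E.trans (and_iff_right z.2.1)
  ⟨e ▸ (TT.isClosed_ovP ρ).preimage continuous_subtype_val, isOpen_iff_mem_nhds.2 fun _ h =>
    (continuous_subtype_val.continuousAt.eventually (t.ev_V ρ h)).mono fun y a => a.2 y.2⟩

theorem range_V : range (qinc t.P.E.actT (t.P.cone_V ρ)) = t.P.XL ρ :=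
  Set.ext fun _ => ⟨fun ⟨y, a⟩ => let ⟨z, b⟩ := mk_surj y
    ⟨⟨z.1, t.P.cone_V ρ z.2⟩, by rw [← a, ← b]; rfl, (TT.mem_zro_E.1 z.2).2⟩,
    fun ⟨z, a, b⟩ => ⟨Quo.mk _ ⟨z.1, TT.mem_zro_E.2 ⟨z.2.1, b⟩⟩, a.symm⟩⟩

theorem emb_V : IsEmbedding (qinc t.P.E.actT (t.P.cone_V ρ)) :=
  (Lam.clopen_range t.ok.fix_act _ (t.V_act ρ) (t.clopen_V ρ)).1

theorem clopen_XL : IsClopen (t.P.XL ρ) :=
  t.range_V ρ ▸ (Lam.clopen_range t.ok.fix_act _ (t.V_act ρ) (t.clopen_V ρ)).2.1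

theorem mk_mem_XL (z : t.P.Fix) : Quo.mk _ z ∈ t.P.XL ρ ↔ OvP t.P.E.toWt t.P.wt z.1.2 ρ :=
  t.range_V ρ ▸ ((Lam.clopen_range t.ok.fix_act _ (t.V_act ρ) (t.clopen_V ρ)).2.2 z).trans
    (TT.mem_zro_E.trans (and_iff_right z.2.1))

theorem mfd_V {z} (h : z ∈ (t.P.V ρ).E.cone) : ∃ k, MfdAt (t.P.V ρ).E.cone k z := by
  obtain ⟨k, a⟩ := Lam.mfd_diag (nw t.P.E.toWt t.P.wt ρ) (S := t.P.E.cone) (fun s hs x hx => by
    have := t.ok.invT.cone_act (t := (s, fun r => s () ^ (-ρ () r))) (Prod.isUnit_iff.2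
      ⟨isUnit_pi_iff.2 hs, isUnit_pi_iff.2 fun _ => zpow_ne_zero _ (hs _)⟩) (z := x) hx
    refine (congrArg (· ∈ _) (Prod.ext (Subsingleton.elim _ _) (funext fun j => ?_))).mp this
    simp only [Wt.actT, Fintype.prod_unique, nw, ← zpow_mul, ← zpow_sum_ne (hs _), neg_mul,
      Finset.sum_neg_distrib, sub_eq_add_neg, zpow_add₀ (hs _)])
    (t.prs.mfd (TT.mem_zro_E.1 h).1) (TT.mem_zro_E.1 h).2
  exact ⟨k, a.congr (.of_forall fun _ => TT.mem_zro_E.symm)⟩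

/-- **The cone over the fixed locus is a manifold.** -/
theorem mfd_fix (z) (h : z ∈ t.P.Fix) : ∃ k, MfdAt t.P.Fix k z :=
  let ⟨ρ, a⟩ := h.2
  have b := TT.mem_zro_E.2 ⟨h.1, a⟩
  (t.mfd_V ρ b).imp fun _ c => c.congr (t.ev_V ρ b)

theorem j_mk (z : t.P.Fix) : t.j (Quo.mk _ z) = B.pt ⟨z.1.2 ∘ t.ι, (t.mem_cone.1 z.2.1).1⟩ := rfl

theorem j_inj : Injective t.j := t.prs.q_bij.1.comp (Quot.ind fun _ => Quot.ind fun _ a =>
  haveI := t.ok.good.fp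
  Quot.sound (QMA.mk_eq (act := t.P.E.actT) a :))

theorem holM_j : Hb.HolM t.P.Fix (Quo.mk _) B.A B.pt t.j := fun _ =>
  ⟨fun y => y.2 ∘ t.ι, (an_pre _ _).comp analyticAt_snd, .of_forall fun y => ⟨_, t.j_mk y⟩⟩

theorem lc_V (χ : B.R → ℤ) : H.map (qinc t.P.E.actT (t.P.cone_V ρ)) (H.map t.j (B.lc χ)) =
    t.P.E.lc (t.P.V ρ).E.cone 0 χ := by
  have := t.ok.good.fp
  have := t.fp_V ρ
  have e := t.prs.lc_eq χ
  rw [show (fun s => ∑ r, χ r * t.prs.M r s) = χ from funext fun s => by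
    simp [Pi.single_apply]] at e
  have i : (t.P.V ρ).E.cone ⊆ t.P.E.cone := fun _ h => (t.P.cone_V ρ h).1
  rw [← Wt.rs_lc i, e, H.map_map, show t.j.comp (qinc t.P.E.actT (t.P.cone_V ρ)) =
    t.prs.q.comp (qinc t.P.E.actT i) from ContinuousMap.ext (Quot.ind fun _ => rfl), ← H.map_map]
  rfl

end TP

/-- **The parts of the fixed locus.** -/
theorem As.lbl : As.LBL := fun _ B _ t => by
  refine ⟨t.clopen_XL, Quot.ind fun z => ?_, fun ρ x => ⟨?_, fun ⟨w, h, e⟩ =>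
    t.j_inj (e.trans h.j_pt.symm) ▸ h.pt_mem⟩, t.j_inj,
    fun p q x h => Lam.map_HT t.mfd_fix t.holM_j p q _ h, fun ρ =>
      Submodule.tmul_mem_baseChange_of_mem _ (Submodule.mem_iSup_of_mem 0
        (Lam.idU_mem continuous_mk (t.clopen_XL ρ))), fun ρ j h => ?_⟩
  · obtain ⟨ρ, a⟩ := z.2.2
    exact ⟨ρ, ⟨z, rfl, a⟩, fun _ b => ((t.mk_mem_XL _ z).1 b).unique t.ok.free z.2.1 a⟩
  · rintro ⟨z, rfl, a⟩
    exact ⟨_, TP.lb_of_fix z a, rfl⟩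
  · have := t.fp_V ρ
    have e := Wt.lc_eq_zero (F := t.P.E.toWt) (A := (t.P.V ρ).E.cone) (j := t.ι j)
      fun z a => h _ (t.mem_V.1 a).1
    rw [TP.e, ← t.range_V]
    refine piece_eq_zero_emb (t.emb_V ρ) (t.range_V ρ ▸ t.clopen_XL ρ)
      ((congrArg (1 ⊗ₜ ·) (Subtype.ext ?_)).trans (tmul_zero _ _))
    exact (t.lc_V ρ _).trans ((congrArg₂ _ (Subsingleton.elim _ _) (t.w_ι j).symm).trans e)

end Vale.Agent.P287Q
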