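import Vale.Agent.P287Q.As.St
import Vale.Agent.P287Q.Lz.Fam
import Vale.Agent.P287Q.G.LG.EB

/-!
# Equivariant lifts
-/

set_option linter.unusedSectionVars false
set_option linter.style.haveILetI false
set_option maxSynthPendingDepth 3

namespace Vale.Agent.P269.Lz

open Set Function Topology Filter TensorProduct B Vale.Agent.P291Z Vale.Agent.P269.Ch
  Vale.Agent.P269.Loc LG Vale.Agent.P287Q.Hb

namespace LFT

theorem piece {Y : Type} [TopologicalSpace Y] {U : Set Y} (hU : IsClopen U) {c : H Y}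
    (h : H.map (⟨Subtype.val, continuous_subtype_val⟩ : C(U, Y)) c = 0) :
    hcls (fn (U.indicator 1)) * c = 0 := by
  rcases U.eq_empty_or_nonempty with rfl | a
  · rw [indicator_empty', TopP.fn_zero, hcls_zero, zero_mul]
  haveI := a.to_subtype
  obtain ⟨r, hr⟩ := TopP.exists_retr (φ := ⟨Subtype.val, continuous_subtype_val⟩)
    IsEmbedding.subtypeVal (Subtype.range_coe (s := U) ▸ hU :)
  rw [← H.map_id (f := .id Y) (fun _ => rfl) c, ← TopP.ind_mul_map hU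
    (f := .comp ⟨Subtype.val, continuous_subtype_val⟩ r) (g := .id Y) fun y hy => hr y ⟨⟨y, hy⟩, rfl⟩,
    ← H.map_map, h, map_zero, mul_zero]

theorem glue {Y α : Type} [TopologicalSpace Y] [Nice Y] [Finite α] {U : α → Set Y}
    (hU : ∀ i, IsClopen (U i)) (h : ∀ y, ∃! i, y ∈ U i) {c : H Y}
    (hc : ∀ i, H.map (⟨Subtype.val, continuous_subtype_val⟩ : C(U i, Y)) c = 0) : c = 0 := by
  haveI := Fintype.ofFinite α
  have : ∑ i, hcls (fn ((U i).indicator 1)) = 1 := by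
    rw [← hcls_sum _ fun i _ => Orb.cocycle_fn.2 (TopP.lc_ind (hU i)), ← fn_sum, ← hcls_one,
      ← fn_one]
    refine congrArg (hcls <| fn ·) (funext fun y => ?_)
    obtain ⟨i, a, b⟩ := h y
    rw [Finset.sum_apply, Finset.sum_eq_single i
      (fun j _ e => indicator_of_notMem (mt (b j) e) _) (by simp), indicator_of_mem a, Pi.one_apply]
  rw [← one_mul c, ← this, Finset.sum_mul]
  exact Finset.sum_eq_zero fun i _ => piece (hU i) (hc i)

section lf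

variable {σ : Type} [Fintype σ] {X : ℕ → Type} [∀ M, TopologicalSpace (X M)] {A : Type}
  [TopologicalSpace A] {k : ∀ M, C(X M, X (M + 1))} {i : ∀ M, C(A × Bs σ M, X M)}
  {χ : Loc.R σ →ₐ[ℂ] F} {α α' : ∀ M, H (X M)} {y y' : F ⊗[ℂ] H A}

theorem lf_mul (h : Lf k i χ α y) (h' : Lf k i χ α' y') : Lf k i χ (α * α') (y * y') :=
  let ⟨a, x, b, c⟩ := h
  let ⟨a', x', b', c'⟩ := h'
  ⟨Tws.mul a a', x * x', fun M => by rw [map_mul, ← b, ← b', ← map_mul]; rfl, by rw [map_mul, c, c']⟩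

theorem lf_add (h : Lf k i χ α y) (h' : Lf k i χ α' y') : Lf k i χ (α + α') (y + y') :=
  let ⟨a, x, b, c⟩ := h
  let ⟨a', x', b', c'⟩ := h'
  ⟨add_mem a a', x + x', fun M => by rw [map_add, ← b, ← b', ← map_add]; rfl, by rw [map_add, c, c']⟩

theorem lf_smul (h : Lf k i χ α y) (z : ℂ) : Lf k i χ (z • α) (z • y) :=
  let ⟨a, x, b, c⟩ := h
  ⟨Submodule.smul_mem _ z a, z • x, fun M => by rw [map_smul, ← b, ← H.map_smulC]; rfl,
    by rw [map_smul, c]⟩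

theorem lf_one : Lf k i χ 1 1 :=
  ⟨Tws.one, 1, fun _ => (map_one _).trans (map_one _).symm, map_one _⟩

end lf

variable {R J K σ : Type} [Fintype R] [Fintype J] [Fintype K] [Fintype σ] [DecidableEq R]
  [DecidableEq σ] {P : TT R J K σ} {K₀ : RD R} {k D : ℕ} {a : σ → ℂ}

theorem hm_fst {A A' : Type} [NormedRing A] [NormedAlgebra ℂ A] [NormedRing A'] [NormedAlgebra ℂ A'] :
    Tq.Hm (Prod.fst : A × A' → A) := ⟨rfl, fun _ _ _ _ => rfl, fun _ _ => continuousAt_fst⟩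

theorem hm_snd {A A' : Type} [NormedRing A] [NormedAlgebra ℂ A] [NormedRing A'] [NormedAlgebra ℂ A'] :
    Tq.Hm (Prod.snd : A × A' → A') := ⟨rfl, fun _ _ _ _ => rfl, fun _ _ => continuousAt_snd⟩

theorem mem_XL (h : P.Ok K₀ k D) {ρ : σ → R → ℤ} {z : P.Fix} :
    Quo.mk _ z ∈ P.XL ρ ↔ OvP P.E.toWt P.wt z.1.2 ρ := by
  haveI := h.fp_fix
  refine ⟨fun ⟨z', b, c⟩ => ?_, fun b => ⟨z, rfl, b⟩⟩
  obtain ⟨g, e⟩ := Holo.Sp.mk_eq_iff.1 (b.symm : Holo.Sp.mk (act := P.E.actT) z' = Holo.Sp.mk z)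
  rw [show z.1 = P.E.actT g z'.1 from congrArg Holo.Sp.val e.symm]
  exact TT.ovP_act c _

theorem uniq_XL (h : P.Ok K₀ k D) (x : P.X) : ∃! ρ : Lbl P.E P.wt, x ∈ P.XL ρ.1 := by
  obtain ⟨z, rfl⟩ := Tq.mk_surj x
  obtain ⟨ρ, b⟩ := z.2.2
  exact ⟨⟨ρ, z, z.2.1, b⟩, ⟨z, rfl, b⟩, fun ρ' c =>
    Subtype.ext (((mem_XL h).1 c).unique h.free z.2.1 b)⟩

theorem clopen_XL (h : P.Ok K₀ k D) (ρ : σ → R → ℤ) : IsClopen (P.XL ρ) := by
  have c : ∀ ρ, IsClosed (P.XL ρ) := fun ρ => isQuotientMap_quot_mk.isClosed_preimage.1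
    (mem_of_eq_of_mem (s := {s | IsClosed s}) (Set.ext fun _ => mem_XL h)
      ((TT.isClosed_ovP ρ).preimage continuous_subtype_val))
  refine ⟨c ρ, isClosed_compl_iff.1 (mem_of_eq_of_mem (s := {s | IsClosed s}) (Set.ext fun x => ?_)
    (((finite_lbl h.free P.wt).subset (sdiff_subset (t := {ρ}))).isClosed_biUnion fun l _ => c l))⟩
  obtain ⟨z, rfl⟩ := Tq.mk_surj x
  obtain ⟨l, b⟩ := z.2.2
  exact ⟨fun u => mem_biUnion (t := fun l => P.XL l) ⟨⟨z, z.2.1, b⟩, fun e : l = ρ =>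
    u ⟨z, rfl, e ▸ b⟩⟩ ⟨z, rfl, b⟩, fun u v =>
    let ⟨_, c, e⟩ := mem_iUnion₂.1 u
    c.2 (((mem_XL h).1 e).unique h.free z.2.1 ((mem_XL h).1 v))⟩

variable (P) in
/-- the equivariant class of a character -/
noncomputable def lc (c : (σ → ℂ) × (R → ℂ) → ℂ) (M : ℕ) : H (P.XE M) :=
  Tq.lcq (P.EM M).actT (P.EM M).cone c

theorem eqh_inc (M : ℕ) : Tq.Eqh (P.EM M).actT (P.EM (M + 1)).actT (P.EM M).cone
    (P.EM (M + 1)).cone (fun b => b)
    fun z => (fun b => (Fin.cons 0 fun j => z.1 (b.1, j) : Fin (M + 2) → ℂ) b.2, z.2) :=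
  ⟨.id, fun z hz => TT.mem_cone.2 ⟨fun i => let ⟨j, e⟩ := (TT.mem_cone.1 hz).1 i; ⟨j.succ, e⟩,
      (TT.mem_cone.1 hz).2⟩,
    ((continuous_pi fun ⟨i, j⟩ => by
      induction j using Fin.cases with
      | zero => exact continuous_const
      | succ j => exact (continuous_apply (i, j)).comp continuous_fst).prodMk
      continuous_snd).continuousOn,
    fun t _ z _ => Prod.ext (funext fun ⟨i, j⟩ => Eq.trans (by
      induction j using Fin.cases with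
      | zero => exact (mul_zero _).symm
      | succ j => exact TT.actL_EM t.1 z.1 (i, j)) (TT.actL_EM _ _ _).symm) rfl⟩

theorem eqh_bs (M : ℕ) : Tq.Eqh (P.EM M).actT (P.EM M).actL (P.EM M).cone (PMs σ M) Prod.fst
    Prod.fst := ⟨hm_fst, fun _ hz => hz.1, continuousOn_fst, fun _ _ _ _ => rfl⟩

theorem eqh_b : Tq.Eqh P.E.actT (P.EM 0).actT P.E.cone (P.EM 0).cone (fun t => (1, t.2))
    fun z => (1, z.2) :=
  ⟨⟨rfl, fun _ _ _ _ => Prod.ext (mul_one _).symm rfl,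
      fun _ _ => continuousAt_const.prodMk continuousAt_snd⟩,
    fun _ hz => TT.mem_fam hz fun _ => ⟨0, one_ne_zero⟩,
    (continuous_const.prodMk continuous_snd).continuousOn,
    fun t _ z _ => ((TT.act_one t.2 (1, z.2)).trans (Prod.ext rfl (funext fun j =>
      (actT_snd _ _ _ j).trans (actT_snd t.2 t.1 z j).symm))).symm⟩

theorem XE_ind {M : ℕ} {p : P.XE M → Prop}
    (h : ∀ (q : PM σ M) y h, p (Quo.mk _ ⟨(uncurry q.val, y), h⟩)) (x : P.XE M) : p x := by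
  obtain ⟨⟨⟨l, y⟩, b⟩, rfl⟩ := Tq.mk_surj x
  obtain ⟨q, rfl⟩ := exists_pm (l := l) b.1
  exact h q y b

theorem XB_ind {M : ℕ} {p : P.X × Bs σ M → Prop} (h : ∀ (z : P.Fix) q, p (Quo.mk _ z, bp q))
    (x : P.X × Bs σ M) : p x := by
  obtain ⟨x, b⟩ := x
  obtain ⟨z, rfl⟩ := Tq.mk_surj x
  obtain ⟨q, rfl⟩ := isOpenQuotientMap_bp.surjective b
  exact h z q

variable (h : P.Ok K₀ k D) (g : TG P a)
include h

theorem lc_tws {c : (σ → ℂ) × (R → ℂ) → ℂ} (hc : Tq.Hm c) : lc P c ∈ Tws g.k := by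
  haveI := fun M => (h.good_EM M).fp
  refine Tws.of (fun M => ?_) fun M => Tq.lcq_deg hc
  rw [show g.k M = (eqh_inc M).toEqv.qm from
    ContinuousMap.ext (XE_ind fun q y b => (g.k_mk M q y b).2)]
  exact (eqh_inc M).map_lcq hc

theorem map_b {b : C(P.E.X P.E.cone, P.XE 0)}
    (hb : ∀ z : P.E.cone, ∃ h, b (Quo.mk _ z) = Quo.mk _ ⟨(1, z.1.2), h⟩)
    {c : (σ → ℂ) × (R → ℂ) → ℂ} (hc : Tq.Hm c) :
    H.map b (lc P c 0) = Tq.lcq P.E.actT P.E.cone fun t => c (1, t.2) := by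
  haveI := (h.good_EM 0).fp
  haveI := h.good.fp
  rw [show b = eqh_b.toEqv.qm from ContinuousMap.ext (Tq.mk_surj.forall.2 fun z => (hb z).2)]
  exact eqh_b.map_lcq hc

theorem map_t (M : ℕ) (s : σ) :
    H.map (g.i M) (lc P (fun t => t.1 s) M) = evA _ M (MvPolynomial.X s ⊗ₜ 1) := by
  haveI := (h.good_EM M).fp
  haveI := fp_PMs (TT.actL_EM (P := P) (M := M))
  obtain ⟨e, -, b, c, -⟩ := exists_eB (TT.actL_EM (P := P) (M := M))
  rw [evA_one, ← c, lc, ← (eqh_bs M).map_lcq (P287Q.hm_crd s), H.map_map, H.map_map]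
  exact congrArg (H.map · _) (ContinuousMap.ext (XB_ind fun z q =>
    (congrArg _ (g.i_mk M z q).2).trans (b q).symm))

theorem lf_t (s : σ) : Lf g.k g.i (chiA a) (lc P fun t => t.1 s) ((a s • tt) ⊗ₜ 1) :=
  ⟨lc_tws h g (hm_fst.comp (P287Q.hm_crd s)), _, fun M => map_t h g M s, by
    rw [bc_tmul, chiA_X]⟩

omit h in
theorem lf_pull {T : Type} [TopologicalSpace T] [Nice T] (f : ∀ M, C(P.XE M, T)) (φ : C(P.X, T))
    (e : ∀ M (q : PM σ M) y h h', f (M + 1) (Quo.mk _ ⟨(uncurry q.inc.val, y), h'⟩) =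
      f M (Quo.mk _ ⟨(uncurry q.val, y), h⟩))
    (e' : ∀ M (q : PM σ M) (z : P.Fix) h, f M (Quo.mk _ ⟨(uncurry q.val, z.1.2), h⟩) =
      φ (Quo.mk _ z)) (c : H T) :
    Lf g.k g.i (chiA a) (fun M => H.map (f M) c) (1 ⊗ₜ H.map φ c) :=
  ⟨Tws.pull f (fun M => XE_ind fun q y b => (congrArg _ (g.k_mk M q y b).2).trans (e M q y b _)) c,
    1 ⊗ₜ H.map φ c, fun M => by
      rw [evA_tmul, map_one, map_one, one_mul, H.map_map, H.map_map]
      exact congrArg (H.map · _) (ContinuousMap.ext (XB_ind fun z q =>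
        (congrArg _ (g.i_mk M z q).2).trans (e' M q z _))), by rw [bc_tmul, map_one]⟩

omit h in
theorem eqh_fix (M : ℕ) (ρ : σ → R → ℤ) : Tq.Eqh (P.EM M).actT P.E.actT
    ((P.EM M).cone ∩ {z | OvP P.E.toWt P.wt z.2 ρ}) P.Fix
    (fun t => (1, fun r => t.2 r * ∏ i, t.1 i ^ ρ i r)) fun z => (Empty.elim, z.2) :=
  have c : ∀ r, Tq.Hm fun t : (σ → ℂ) × (R → ℂ) => t.2 r * ∏ i, t.1 i ^ ρ i r := fun r =>
    (hm_snd.comp (P287Q.hm_crd r)).mul' (hm_fst.comp (P287Q.hm_chr fun i => ρ i r))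
  ⟨⟨Prod.ext rfl (funext fun r => (c r).one), fun t t' b b' =>
      Prod.ext (mul_one _).symm (funext fun r => (c r).mul t t' b b'),
      fun t b => continuousAt_const.prodMk (continuousAt_pi.2 fun r => (c r).cont t b)⟩,
    fun _ hz => ⟨TT.mem_E hz.1, ρ, hz.2⟩, TT.cont.continuousOn,
    fun t b z hz => Prod.ext (Subsingleton.elim _ _) (funext fun j => by
      have := hz.2.tc_mul (isUnit_T.1 b).1 j
      simp only [actT_snd, mul_zpow, Finset.prod_mul_distrib, mul_assoc, ← this]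
      exact (mul_assoc _ _ _).trans (mul_left_comm _ _ _))⟩

/-- **the restriction of an equivariant line bundle to a part of the fixed locus** -/
theorem map_lc (M : ℕ) (χ : R → ℤ) (ρ : σ → R → ℤ) {U : Type} [TopologicalSpace U]
    (f : C(U, P.X × Bs σ M)) (hf : ∀ u, (f u).1 ∈ P.XL ρ) :
    H.map f (H.map (g.i M) (lc P (fun t => ∏ r, t.2 r ^ χ r) M) +
      ∑ s, ((ρ s ⬝ᵥ χ : ℤ) : ℂ) • evA _ M (MvPolynomial.X s ⊗ₜ 1)) =
    H.map f (H.map .fst (Tq.lcq P.E.actT P.Fix fun t => ∏ r, t.2 r ^ χ r)) := by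
  have c : IsClosed {z : (σ × Fin (M + 1) → ℂ) × (J → ℂ) | OvP P.E.toWt P.wt z.2 ρ} :=
    (TT.isClosed_ovP ρ).preimage TT.cont
  have G := h.good_EM M
  haveI := G.fp
  haveI := h.fp_fix
  haveI := G.fp_of (A := _ ∩ {z | OvP P.E.toWt P.wt z.2 ρ}) inter_subset_left
    (fun t b z hz => ⟨G.cone_act b hz.1, TT.ovP_act hz.2 _⟩) (G.lc_cone.inter c.isLocallyClosed)
  have e := Tq.Eqh.incl (act := (P.EM M).actT) (inter_subset_left (s := (P.EM M).cone)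
    (t := {z | OvP P.E.toWt P.wt z.2 ρ}))
  have e1 : IsEmbedding e.toEqv.qm := (Mono.isClosedEmbedding_qinc
    (S := (P.EM M).cone ∩ {z | OvP P.E.toWt P.wt z.2 ρ}) inter_subset_left
    (mem_of_eq_of_mem (s := {s | IsClosed s}) (Set.ext fun z => and_iff_right z.2)
      (c.preimage continuous_subtype_val))).isEmbedding
  have e2 : ∀ z : P.X × Bs σ M, z.1 ∈ P.XL ρ →
      ∃ y, e.toEqv.qm y = g.i M z ∧ (eqh_fix M ρ).toEqv.qm y = z.1 := XB_ind fun z q b =>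
    let ⟨u, v⟩ := g.i_mk M z q
    ⟨Quo.mk _ ⟨_, u, (mem_XL h).1 b⟩, v.symm, congrArg (Quo.mk _)
      (Subtype.ext (Prod.ext (Subsingleton.elim _ _) rfl))⟩
  choose j j1 j2 using fun u => e2 _ (hf u)
  let φ : C(U, _) := ⟨j, e1.continuous_iff.2 (((g.i M).comp f).continuous.congr fun u => (j1 u).symm)⟩
  have k1 := hm_snd.comp (P287Q.hm_chr χ) (A := (σ → ℂ) × (R → ℂ))
  have k2 := fun s => hm_fst.comp (P287Q.hm_crd s) (A := (σ → ℂ) × (R → ℂ))
  simp only [← map_t h g, ← H.map_smulC, ← map_sum, ← map_add]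
  rw [H.map_map, H.map_map, show (g.i M).comp f = e.toEqv.qm.comp φ from
      ContinuousMap.ext fun u => (j1 u).symm,
    show ContinuousMap.fst.comp f = (eqh_fix M ρ).toEqv.qm.comp φ from
      ContinuousMap.ext fun u => (j2 u).symm, ← H.map_map, ← H.map_map,
    (eqh_fix M ρ).map_lcq (hm_snd.comp (P287Q.hm_chr χ))]
  simp only [lc, ← lcq_ipow (k2 _)]
  rw [← lcq_fprod _ fun s => hm_zpow (k2 s) _, ← Tq.lcq_mul k1 (hm_prod _ fun s => hm_zpow (k2 s) _),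
    e.map_lcq (k1.mul' (hm_prod _ fun s => hm_zpow (k2 s) _))]
  refine congrArg _ (Tq.lcq_congr (k1.mul' (hm_prod _ fun s => hm_zpow (k2 s) _)) fun t b => ?_).symm
  simp only [mul_zpow, Finset.prod_mul_distrib,
    FxA.prod_zpow_zpow (isUnit_T.1 b).1 fun r i => ρ i r, Finset.sum_apply, Pi.smul_apply,
    smul_eq_mul, dotProduct, mul_comm (χ _)]

theorem lf_lc (χ : R → ℤ) : ∃ y : F ⊗[ℂ] Hev P.X,
    Lf g.k g.i (chiA a) (lc P fun t => ∏ r, t.2 r ^ χ r) (inF _ y) ∧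
    haveI := g.niceX
    ∀ ρ, inF _ (idE (P.XL ρ) * y) = inF _ (idE (P.XL ρ)) *
      (1 ⊗ₜ Tq.lcq P.E.actT P.Fix (fun t => ∏ r, t.2 r ^ χ r) -
        ∑ s, ((ρ s ⬝ᵥ χ : ℤ) : ℂ) • (a s • tt) ⊗ₜ 1) := by
  haveI := g.niceX
  haveI := h.fp_fix
  haveI := (finite_lbl h.free P.wt).to_subtype
  choose l l1 l2 using uniq_XL h
  have l3 : ∀ ρ, ∀ x ∈ P.XL ρ, (l x).1 = ρ := fun ρ => Tq.mk_surj.forall.2 fun z b =>
    ((mem_XL h).1 (l1 _)).unique h.free z.2.1 ((mem_XL h).1 b)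
  let w : σ → P.X → ℂ := fun s x => ((l x).1 s ⬝ᵥ χ : ℤ)
  have w1 : ∀ s, IsLocallyConstant (w s) := fun s => (IsLocallyConstant.iff_exists_open _).2 fun x =>
    ⟨_, (clopen_XL h _).isOpen, l1 x, fun x' b => by simp only [w, l3 _ _ b]⟩
  have k1 := hm_snd.comp (P287Q.hm_chr χ) (A := (Empty → ℂ) × (R → ℂ))
  let x : Loc.R σ ⊗[ℂ] Hev P.X := 1 ⊗ₜ ⟨_, Tq.lcq_mem k1⟩ -
    ∑ s, MvPolynomial.X s ⊗ₜ ⟨hcls (fn (w s)), fn_mem_Hev _⟩
  have x1 : inH _ x = 1 ⊗ₜ Tq.lcq P.E.actT P.Fix (fun t => ∏ r, t.2 r ^ χ r) -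
      ∑ s, MvPolynomial.X s ⊗ₜ hcls (fn (w s)) := by
    simp only [x, map_sub, map_sum]
    rfl
  refine ⟨bc _ (chiA a) x, ⟨lc_tws h g (hm_snd.comp (P287Q.hm_chr χ)), inH _ x, fun M => ?_,
    (inF_bc _ _).symm⟩, fun ρ => ?_⟩
  · refine sub_eq_zero.1 (glue (fun ρ : Lbl P.E P.wt => (clopen_XL h ρ.1).preimage continuous_fst)
      (fun z => uniq_XL h z.1) fun ρ => ?_)
    have := map_lc h g M χ ρ ⟨Subtype.val, continuous_subtype_val⟩ fun u : Prod.fst ⁻¹' P.XL ρ => u.2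
    rw [map_add, ← eq_sub_iff_add_eq] at this
    rw [map_sub, this, x1, map_sub, map_sub, evA_tmul, map_one, map_one, one_mul, sub_sub_sub_cancel_left,
      map_sum, map_sum, map_sum, sub_eq_zero]
    refine Finset.sum_congr rfl fun s _ => ?_
    rw [evA_tmul, evA_one, map_mul, H.map_map _ .fst, TopP.map_fn' _ (w1 s), H.map_smulC,
      show w s ∘ _ = ((ρ.1 s ⬝ᵥ χ : ℤ) : ℂ) • fun _ => (1 : ℂ) from funext fun u => by
        simp [w, l3 _ _ u.2], TopP.fn_smul, fn_one, hcls_smul _ cocycle_one, hcls_one, mul_smul_comm, mul_one]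
  · rw [map_mul, inF_bc, x1, map_sub, map_sum, bc_tmul, map_one, mul_sub, mul_sub, Finset.mul_sum,
      Finset.mul_sum]
    refine congrArg _ (Finset.sum_congr rfl fun s _ => ?_)
    have u := Orb.cocycle_fn.2 (TopP.lc_ind (clopen_XL h ρ))
    rw [bc_tmul, chiA_X, idE, fnE, inF_tmul, mul_smul_comm, Algebra.TensorProduct.tmul_mul_tmul,
      Algebra.TensorProduct.tmul_mul_tmul, mul_one, ← tmul_smul, ← hcls_mul u (Orb.cocycle_fn.2 (w1 s)),
      ← TopP.fn_mul, ← hcls_smul _ u, ← TopP.fn_smul]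
    refine congrArg (fun u => _ ⊗ₜ hcls (fn u)) (funext fun y => ?_)
    by_cases b : y ∈ P.XL ρ
    · simp [w, b, l3 _ _ b]
    · simp [b]

end LFT

end Vale.Agent.P269.Lz

namespace Vale.Agent.P287Q

open Set Function Topology Filter TensorProduct P291Z P269 P269.B P269.Ch P269.Loc P269.LG P269.Lz
  P269.Lz.LFT

variable {n m : ℕ} {B : Var n} {wt : B.J → Unit → ℤ} (t : TP B wt)

theorem TP.lft_eqh : Tq.Eqh t.P.E.actT (scl B.π) t.P.E.cone B.A Prod.snd fun z => z.2 ∘ t.ι :=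
  ⟨hm_snd, t.tors.maps, t.prs.eqv.cont, fun a _ z _ => funext fun j => by
    have : t.P.E.w (t.ι j) = _ := t.tors.w j
    rw [comp_apply, show a = (a.1, a.2) from rfl, Lz.actT_snd, this,
      Finset.prod_eq_single (B.π j) (fun r _ h => by simp [h]) (by simp)]
    simp [scl]⟩

theorem TP.lft_pb (χ : B.R → ℤ) :
    t.prs.pb (B.lc χ) = Tq.lcq t.P.E.actT t.P.E.cone fun a => ∏ r, a.2 r ^ χ r :=
  haveI := isAct_scl B.π
  haveI := B.qm.fp
  haveI := t.ok.good.fp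
  t.lft_eqh.map_lcq (hm_chr χ)

theorem TP.lft_j (χ : B.R → ℤ) :
    H.map t.j (B.lc χ) = Tq.lcq t.P.E.actT t.P.Fix fun a => ∏ r, a.2 r ^ χ r :=
  haveI := t.ok.good.fp
  haveI := t.ok.fp_fix
  (H.map_map _ _ _).symm.trans ((congrArg _ (t.lft_pb χ)).trans
    ((Tq.Eqh.incl TT.fix_sub).map_lcq (hm_snd.comp (hm_chr χ))))

theorem TP.lft_eqv {X : Var m} (π : Ext B X) (h : ∀ j, wt (π.iJ j) = 0) (M : ℕ) :
    Tq.Eqv (t.P.EM M).actT (scl X.π) (t.P.EM M).cone X.A fun z => z.2 ∘ t.ι ∘ π.iJ :=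
  ⟨fun _ hz => π.map _ (t.tors.maps _ (TT.mem_E (l := Empty.elim) hz)),
    (continuous_pi fun _ => (continuous_apply _).comp continuous_snd).continuousOn,
    fun a ha z _ => ⟨a.2 ∘ π.iR, Pi.isUnit_iff.2 fun _ =>
      Pi.isUnit_iff.1 (Prod.isUnit_iff.1 ha).2 _, funext fun j => by
      have : t.P.w (t.ι (π.iJ j)) = _ := t.tors.w _
      simp only [scl, comp_apply, Wt.actT, this, t.wt_ι, h, Pi.zero_apply, zpow_zero,
        Finset.prod_const_one, one_mul, id, π.blk]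
      rw [Finset.prod_eq_single (π.iR (X.π j)) (fun r _ h => by simp [h]) (by simp)]
      simp⟩⟩

/-- **Equivariant lifts.** -/
theorem As.lft : As.LFT := fun n B wt t s => by
  refine ⟨⟨1, (map_one (inF t.P.X)).symm ▸ lf_one, (map_one _).trans (map_one _).symm⟩,
    ⟨_, (show (a₁ () • tt) ⊗ₜ 1 = inF t.P.X (cst t.HH tt) from
        congrArg (· ⊗ₜ _) (one_smul ℂ tt)) ▸ lf_t t.ok s.g (),
      (map_b t.ok s.b_mk (hm_fst.comp (hm_crd ()))).trans ?_⟩,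
    fun x c x' c' ⟨α, a, b⟩ ⟨α', a', b'⟩ => ⟨⟨α + α', (map_add (inF _) x x').symm ▸ lf_add a a',
      by rw [map_add, ← b, ← b', ← map_add]; rfl⟩, α * α', (map_mul (inF _) x x').symm ▸ lf_mul a a',
      by rw [map_mul, ← b, ← b', ← map_mul]; rfl⟩,
    fun z x c ⟨α, a, b⟩ => ⟨z • α, (LinearMap.map_smul_of_tower (inF _).toLinearMap z x).symm ▸
      lf_smul a z, by rw [map_smul, ← b, ← H.map_smulC]; rfl⟩,
    fun m X π h x => ?_, -1, by simp, fun χ => ?_⟩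
  · haveI := t.ok.good.fp
    exact Tq.lcq_one.trans (map_zero _).symm
  · haveI := X.nice
    refine ⟨_, (congrArg ((1 : F) ⊗ₜ[ℂ] ·) (H.map_map t.j π.q x.1)).symm ▸ lf_pull s.g
      (fun M => (t.lft_eqv π h M).qm) (π.q.comp t.j) (fun _ _ _ _ _ => rfl) (fun _ _ _ _ => rfl) x.1, ?_⟩
    refine (H.map_map _ _ _).trans (Eq.trans (congrArg (H.map · _) (ContinuousMap.ext
      (Tq.mk_surj.forall.2 fun z => ?_))) (H.map_map t.prs.q π.q x.1).symm)
    exact congrArg _ (s.b_mk z).2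
  · obtain ⟨y, a, b⟩ := lf_lc t.ok s.g χ
    refine ⟨y, ⟨_, a, (map_b t.ok s.b_mk (hm_snd.comp (hm_chr χ))).trans (t.lft_pb χ).symm⟩,
      fun ρ => inF_injective ((b ρ).trans ?_)⟩
    rw [map_mul, map_add, ← t.lft_j, Fintype.sum_unique, one_smul, sub_eq_add_neg, ← neg_smul,
      neg_one_mul, smul_tmul']
    rfl

end Vale.Agent.P287Q
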