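import Vale.Agent.P287Q.As.St
import Vale.Agent.P287Q.Lz.Mov4
import Vale.Agent.P287Q.Cnt.Lin

/-!
# Classes that move between the markings, classes that are killed
-/

set_option linter.unusedSectionVars false
set_option maxSynthPendingDepth 3

namespace Vale.Agent.P287Q.As

open Set Function Topology Filter TensorProduct P291Z P269 P269.B P269.Ch P269.Loc P269.LG P269.Lz

section en

variable {α ν : Type} [Fintype ν] [DecidableEq ν] {S : Finset ν} {x : ν → α} {u v : Multiset α}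

/-- The family `x` enumerates `u` on `S` and `v` on the complement. -/
def Enu (S : Finset ν) (x : ν → α) (u v : Multiset α) : Prop := S.val.map x = u ∧ Sᶜ.val.map x = v

theorem mov_in (S : Finset ν) (y : α) (x : ν → α) :
    (Finset.insertNone S).val.map (fun o => o.elim y x) = y ::ₘ S.val.map x := by
  rw [Finset.insertNone, OrderEmbedding.coe_ofMapLEIff, Finset.cons_val, Multiset.map_cons,
    Finset.map_val, Multiset.map_map]
  rfl

theorem mov_out (S : Finset ν) (y : α) (x : ν → α) :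
    (S.map .some).val.map (fun o => o.elim y x) = S.val.map x := by
  rw [Finset.map_val, Multiset.map_map]
  rfl

theorem Enu.inn (h : Enu S x u v) (y : α) :
    Enu (Finset.insertNone S) (fun o => o.elim y x) (y ::ₘ u) v :=
  ⟨h.1 ▸ mov_in S y x, by
    rw [show (Finset.insertNone S)ᶜ = Sᶜ.map .some from Finset.ext fun o => by cases o <;> simp,
      mov_out, h.2]⟩

theorem Enu.out (h : Enu S x u v) (y : α) : Enu (S.map .some) (fun o => o.elim y x) u (y ::ₘ v) :=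
  ⟨h.1 ▸ mov_out S y x, by
    rw [show (S.map .some)ᶜ = Finset.insertNone Sᶜ from Finset.ext fun o => by cases o <;> simp,
      mov_in, h.2]⟩

theorem Enu.univ (h : Enu S x 0 v) : Finset.univ.val.map x = v := by
  rw [← h.2, Finset.val_eq_zero.1 (Multiset.map_eq_zero.1 h.1), Finset.compl_empty]

theorem exists_en (u v : Multiset α) : ∃ (ν : Type) (_ : Fintype ν) (_ : DecidableEq ν)
    (S : Finset ν) (x : ν → α), Enu S x u v := by
  induction u using Multiset.induction_on with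
  | empty =>
    induction v using Multiset.induction_on with
    | empty => exact ⟨Empty, inferInstance, inferInstance, ∅, Empty.elim, rfl, rfl⟩
    | cons y v ih =>
      obtain ⟨ν, _, _, S, x, h⟩ := ih
      exact ⟨_, _, _, _, _, h.out y⟩
  | cons y u ih =>
    obtain ⟨ν, _, _, S, x, h⟩ := ih
    exact ⟨_, _, _, _, _, h.inn y⟩

end en

section top

variable {A A' : Type} [TopologicalSpace A] [TopologicalSpace A'] [Nice A] {U : Set A}

theorem idE_mul_pbE (hU : IsClopen U) {f f' : C(A, A')} (h : ∀ a ∈ U, f a = f' a)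
    (x : F ⊗[ℂ] Hev A') : idE U * pbE f x = idE U * pbE f' x :=
  inF_injective (by rw [map_mul, map_mul, ← pb_inF, ← pb_inF, idE_mul_pb hU h])

theorem idE_mul_eq_zero (hU : IsClopen U) {x : F ⊗[ℂ] Hev A}
    (h : pbE ⟨_, (continuous_subtype_val : Continuous fun a : U => a.1)⟩ x = 0) : idE U * x = 0 :=
  (congrArg (fun V => idE V * x) (Subtype.range_coe (s := U)).symm).trans (piece_eq_zero_emb
    (φ := ⟨_, (continuous_subtype_val : Continuous fun a : U => a.1)⟩) .subtypeVal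
    (Subtype.range_coe (s := U).symm ▸ hU) h)

end top

section fx

variable {R J K σ ν : Type} [Fintype R] [Fintype J] [Fintype K] [Fintype σ] [Fintype ν]
  {P : TT R J K σ} (T : Th P) (d : R →₀ ℕ)

theorem mov_alg {A : Type} [CommRing A] {e a b a' b' : A} (h : e * (a * b) = e * (a' * b'))
    (p q r : A) : e * (p * a * (q * b * r)) = e * (p * a' * (q * b' * r)) := by
  linear_combination p * q * r * h

theorem mov_alg' {A : Type} [CommRing A] {e a b : A} (h : e * a = e * b) (x y : A) :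
    e * (a * x * y) = e * (x * (b * y)) := by
  linear_combination x * y * h

theorem mov_alg₀ {A : Type} [CommRing A] {e a b c : A} (h : e * a = 0) (k : b = a * c) (p r : A) :
    e * (p * b * r) = 0 := by
  linear_combination p * r * c * h + e * p * r * k

theorem fx_two {Q : AM1 R J (Option (Option ν)) → Prop} {u v u' v' : F ⊗[ℂ] Hev P.X}
    (h : (T _ 0 fun r => d r).id Q * (pbE ((T _ 0 fun r => d r).ev none) u *
      pbE ((T _ 0 fun r => d r).ev (some none)) v) = (T _ 0 fun r => d r).id Q *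
      (pbE ((T _ 0 fun r => d r).ev none) u' * pbE ((T _ 0 fun r => d r).ev (some none)) v'))
    (i j : ℕ) (x : ν → ℕ × F ⊗[ℂ] Hev P.X) :
    fx T d Q (fun o => o.elim (i, u) fun o => o.elim (j, v) x) =
      fx T d Q fun o => o.elim (i, u') fun o => o.elim (j, v') x := by
  rw [fx, fx, Fintype.prod_option, Fintype.prod_option, Fintype.prod_option, Fintype.prod_option]
  exact congrArg (fun z => (T _ 0 fun r => d r).I (inF _ z)) (mov_alg h _ _ _)

theorem fx_mv {Q : AM1 R J (Option (Option ν)) → Prop} {w : F ⊗[ℂ] Hev P.X}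
    (h : (T _ 0 fun r => d r).id Q * pbE ((T _ 0 fun r => d r).ev none) w =
      (T _ 0 fun r => d r).id Q * pbE ((T _ 0 fun r => d r).ev (some none)) w)
    (i j : ℕ) (u v : F ⊗[ℂ] Hev P.X) (x : ν → ℕ × F ⊗[ℂ] Hev P.X) :
    fx T d Q (fun o => o.elim (i, w * u) fun o => o.elim (j, v) x) =
      fx T d Q fun o => o.elim (i, u) fun o => o.elim (j, w * v) x :=
  fx_two T d (by rw [map_mul, map_mul]; exact mov_alg' h _ _) i j x

theorem fx_zero {Q : AM1 R J (Option ν) → Prop} {w : F ⊗[ℂ] Hev P.X}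
    (h : (T _ 0 fun r => d r).id Q * pbE ((T _ 0 fun r => d r).ev none) w = 0)
    (i : ℕ) (u : F ⊗[ℂ] Hev P.X) (x : ν → ℕ × F ⊗[ℂ] Hev P.X) :
    fx T d Q (fun o => o.elim (i, w * u) x) = 0 := by
  rw [fx, Fintype.prod_option]
  refine (congrArg (fun z => (T _ 0 fun r => d r).I (inF _ z)) (mov_alg₀ (c := pbE _ u) h
    (map_mul _ _ _) _ _)).trans ?_
  rw [map_zero, map_zero]

end fx

variable {n m : ℕ} {B : Var n} {wt : B.J → Unit → ℤ} {t : TP B wt} (s : Sy t) {X : Var m}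

theorem C_en {ν : Type} [Fintype ν] [DecidableEq ν] {S : Finset ν} {x : ν → ℕ × t.HH} {u v}
    (h : Enu S x u v) (d : B.R →₀ ℕ) :
    s.Q.C d u v = fx s.T d (fun m => m.Conn ∧ Com t.P.E.toWt t.P.wt m S) x :=
  h.1 ▸ h.2 ▸ s.C ν d S x

theorem vm_of {a : t.HH} (h : ∀ (ν : Type) [Fintype ν] [Nonempty ν] (d : B.R → ℤ) (b c : ν),
    (s.T ν 0 d).id (fun m => m.Conn ∧ ∀ z, OnV t.P.E.toWt t.P.wt m z) * pbE ((s.T ν 0 d).ev b) a =
      (s.T ν 0 d).id (fun m => m.Conn ∧ ∀ z, OnV t.P.E.toWt t.P.wt m z) *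
        pbE ((s.T ν 0 d).ev c) a) : s.Q.VM a := fun d i j x y l => by
  obtain ⟨ν, _, _, S, X, e⟩ := exists_en 0 l
  rw [← ((e.out (j, y)).out (i, a * x)).univ, ← ((e.out (j, a * y)).out (i, x)).univ, s.E, s.E]
  exact fx_mv s.T d (h _ _ _ _) i j x y X

/-- A connected map of degree zero on the blocks of `X` is constant in `X`. -/
theorem const_X (π : Ext B X) {ν : Type} [Fintype ν] {d : B.R → ℤ} (hd : ∀ r, d (π.iR r) = 0)
    {τ : P269.Lz.Md t.P ν 0 d} {Q : AM1 B.R t.J ν → Prop} (hQ : ∀ m, Q m → m.Conn) (b c : ν) :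
    ∀ a ∈ τ.sel Q, π.q (t.j (τ.ev b a)) = π.q (t.j (τ.ev c a)) := by
  rintro a ⟨m, r, q⟩
  obtain ⟨_, e1⟩ := τ.evp b r
  obtain ⟨_, e2⟩ := τ.evp c r
  have hs := (τ.fx r).sol
  have k : ∀ z, (m.vl z).2 ∘ t.ι ∘ π.iJ ∈ X.A := fun z => π.map _ (t.tors.maps _ (hs.2.2 z))
  have := fun r' : X.R => Cnt.exists_prop (L := Cv.bz m.L (Pi.single (π.iR r') 1))
    (s := fun j : {j // X.π j = r'} => m.y (t.ι (π.iJ j.1))) (hQ m q)
    (by rw [Cv.bz_single, zpow_one, (τ.fx r).typ.2, hd])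
    (fun ⟨j, e⟩ => by
      have := hs.2.1 (t.ι (π.iJ j))
      rwa [t.tors.w, id, π.blk, e] at this)
    (fun z => let ⟨j, h1, h2⟩ := X.pv.sub (k z) r'; ⟨⟨j, h1⟩, h2⟩) (m.p (.inl b)) (m.p (.inl c))
  choose g g1 g2 using this
  rw [e1, e2]
  exact Quot.sound ⟨g, Pi.isUnit_iff.2 fun r => (g1 r).isUnit, funext fun j => g2 _ ⟨j, rfl⟩⟩

theorem mov_deg {π : Ext B X} {d : B.R →₀ ℕ} (h : ↑d.support ⊆ (range π.iR)ᶜ) (r : X.R) :
    (d (π.iR r) : ℤ) = 0 :=
  Nat.cast_eq_zero.2 (Finsupp.notMem_support_iff.1 fun a => h a ⟨r, rfl⟩)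

theorem cl_map (π : Ext B X) (x : Hev X.X) :
    t.cl (Hev.map π.q x) = pbE (π.q.comp t.j) (1 ⊗ₜ x) := by
  rw [← pbE_pbE, pbE_tmul, pbE_tmul, TP.cl]

theorem mov_fm (π : Ext B X) (x : Hev X.X) : s.Q.FM (range π.iR)ᶜ (t.cl (Hev.map π.q x)) := by
  have k : ∀ {ν : Type} [Fintype ν] {d : B.R →₀ ℕ} (_ : ↑d.support ⊆ (range π.iR)ᶜ) (S : Set ν)
      (b c : ν), (s.T ν 0 fun r => d r).id (fun m => m.Conn ∧ Com t.P.E.toWt t.P.wt m S) *
        pbE ((s.T ν 0 fun r => d r).ev b) (t.cl (Hev.map π.q x)) =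
      (s.T ν 0 fun r => d r).id (fun m => m.Conn ∧ Com t.P.E.toWt t.P.wt m S) *
        pbE ((s.T ν 0 fun r => d r).ev c) (t.cl (Hev.map π.q x)) := fun h S b c => by
    rw [cl_map, pbE_pbE, pbE_pbE]
    exact idE_mul_pbE (s.cC _ _ S) (const_X π (mov_deg h) (fun _ => And.left) b c) _
  refine ⟨fun d h i j x y u v => ?_, fun d h i j x y u v => ?_, fun d h i j x y u v => ?_⟩ <;>
    obtain ⟨ν, _, _, S, X, e⟩ := exists_en u v
  · rw [C_en s ((e.inn _).inn _), C_en s ((e.inn _).inn _)]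
    exact fx_mv s.T d (k h _ _ _) i j x y X
  · rw [C_en s ((e.out _).inn _), C_en s ((e.out _).inn _)]
    exact fx_mv s.T d (k h _ _ _) i j x y X
  · rw [C_en s ((e.out _).out _), C_en s ((e.out _).out _)]
    exact fx_mv s.T d (k h _ _ _) i j x y X

theorem mov_alg₂ {A : Type} [CommRing A] {e a b c c' : A} (h : e * a * b * c = e * a * b * c')
    (x y : A) : e * (a * c * x * (b * y)) = e * (a * x * (b * c' * y)) := by
  linear_combination x * y * h

theorem mov_mid (π : Ext B X) {ρ} (hc : IsClopen (t.P.XL ρ))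
    (hi : InjOn (fun x => π.q (t.j x)) (t.P.XL ρ)) (d : B.R →₀ ℕ)
    (h : ↑d.support ⊆ (range π.iR)ᶜ) (y : t.HH) (i j : ℕ) (x x' : t.HH) (l : Lz.Ms t.HH) :
    s.Q.C d 0 ((i, t.e ρ * y * x) ::ₘ (j, t.e ρ * x') ::ₘ l) =
      s.Q.C d 0 ((i, t.e ρ * x) ::ₘ (j, t.e ρ * y * x') ::ₘ l) := by
  obtain ⟨ν, _, _, S, X, e⟩ := exists_en 0 l
  rw [C_en s ((e.out _).out _), C_en s ((e.out _).out _)]
  refine fx_two s.T d ?_ i j X
  simp only [map_mul]
  refine mov_alg₂ ?_ _ _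
  have c := fun b => hc.preimage ((s.T (Option (Option ν)) 0 fun r => d r).ev b).continuous
  rw [TP.e, pbE_idE _ hc, pbE_idE _ hc, P269.Lz.Md.id, idE_mul (s.cC _ _ _) (c _),
    idE_mul ((s.cC _ _ _).inter (c _)) (c _)]
  exact idE_mul_pbE (((s.cC _ _ _).inter (c _)).inter (c _))
    (fun a ha => hi ha.1.2 ha.2 (const_X π (mov_deg h) (fun _ => And.left) _ _ a ha.1.1)) y

theorem mov_van (d : B.R →₀ ℕ) (y : t.HH) (h : ∀ (T : Type) [TopologicalSpace T] (f : C(T, t.P.X)),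
    range f ⊆ t.Im (fun r => d r) → pbE f y = 0) (i : ℕ) (x : t.HH) (l : Lz.Ms t.HH) :
    s.Q.C d 0 ((i, y * x) ::ₘ l) = 0 := by
  obtain ⟨ν, _, _, S, X, e⟩ := exists_en 0 l
  rw [C_en s (e.out _)]
  refine fx_zero s.T d (idE_mul_eq_zero (s.cC _ _ _) ((pbE_pbE _ _ _).trans (h _ _ ?_))) i x X
  rintro _ ⟨⟨a, m, r, q⟩, rfl⟩
  exact ⟨_, _, m, none, (s.T _ _ _).fx r, q.1, (s.T _ _ _).evp none r⟩

theorem mov_e {ρ} (hc : IsClopen (t.P.XL ρ)) (hu : ∀ x, ∃! ρ, x ∈ t.P.XL ρ) : s.Q.VM (t.e ρ) :=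
  vm_of s fun ν _ _ d b c => by
    have k := fun b => hc.preimage ((s.T ν 0 d).ev b).continuous
    rw [TP.e, pbE_idE _ hc, pbE_idE _ hc, P269.Lz.Md.id, idE_mul (s.cE _ _) (k _),
      idE_mul (s.cE _ _) (k _)]
    refine congrArg idE (Set.ext fun a => and_congr_right ?_)
    rintro ⟨m, r, q1, q2⟩
    obtain ⟨ρ', h⟩ := q2 (m.p (.inl b))
    have l : ∀ b', (s.T ν 0 d).ev b' a ∈ t.P.XL ρ ↔ ρ = ρ' := fun b' => by
      obtain ⟨_, e⟩ := (s.T ν 0 d).evp b' r
      have : (s.T ν 0 d).ev b' a ∈ t.P.XL ρ' := ⟨_, e, Vx.ov (vtx_subset_Vx t.ok.free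
        ((s.T ν 0 d).fx r).sol h ((vtx_eq_univ q1 (q2 _) (tls_of_all q2 _)).ge (mem_univ _)))⟩
      exact ⟨fun u => (hu _).unique u this, fun u => u ▸ this⟩
    exact (l b).trans (l c).symm

theorem mov_w {w : Hev t.P.X} (h : w ∈ t.FT 2 0) : s.Q.VM (1 ⊗ₜ w) :=
  vm_of s fun ν _ _ d b c => Mov.vm_HN t.ok (s.G ν 0 d) (s.cE _ _)
    (fun _ a q => ⟨q.1, fun z => ⟨a.sol.2.2 z, (q.2 z).imp fun _ => Vx.ov⟩⟩)
    (.inl ((Hb.HT_nat _ _ 2 0).le h)) b c 1

/-- **Classes that move, classes that are killed.** -/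
theorem mov (hL : LBL) : MOV := fun n B wt t s =>
  let ⟨a, b, _⟩ := hL n B wt t
  ⟨fun ρ => mov_e s (a ρ) b, fun _ => mov_w s,
    fun _ _ π => ⟨mov_fm s π, fun ρ => mov_mid s π (a ρ)⟩, mov_van s⟩

end Vale.Agent.P287Q.As
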