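import Vale.Agent.P287Q.As.St
import Vale.Agent.P287Q.Wg.TP
import Vale.Agent.P287Q.Pcs.Tor

/-!
# Parts of the fixed locus that are copies of a variety
-/

set_option linter.unusedSectionVars false

namespace Vale.Agent.P287Q

open Set Function Topology Filter P269 P269.Holo P269.Lz P269.Tq

variable {n m : ℕ} {B : Var n} {wt : B.J → Unit → ℤ} {t : TP B wt} {ρ : Unit → B.R → ℤ}
  {w w' : B.J → ℂ}

namespace TP

/-- The fixed point given by a labelled point of the cone. -/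
noncomputable def Lb.pt (h : t.Lb ρ w) : t.P.X := Quo.mk _ ⟨(0, t.Φ w), t.P.cone_V ρ h.mem_V⟩

theorem Lb.j_pt (h : t.Lb ρ w) : t.j h.pt = B.pt ⟨w, h.1⟩ :=
  congrArg (Quo.mk _) (Subtype.ext (t.tors.sec w h.1))

theorem Lb.pt_mem (h : t.Lb ρ w) : h.pt ∈ t.P.XL ρ := ⟨_, rfl, h.2⟩

theorem Lb.pt_orb (h : t.Lb ρ w) (h' : t.Lb ρ w') (e : Orb B.π w w') : h.pt = h'.pt := by
  obtain ⟨a, b, rfl⟩ := e
  exact Quot.sound ⟨(1, a), Prod.isUnit_iff.2 ⟨isUnit_one, b⟩,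
    (congrArg (Prod.mk 0) (t.Φ_scl b h.1)).trans (t.actE (1, a) (0, _)).symm⟩

theorem lb_of_fix (z : t.P.Fix) (h : OvP t.P.E.toWt t.P.wt z.1.2 ρ) : t.Lb ρ (z.1.2 ∘ t.ι) :=
  (t.mem_V.1 (TT.mem_zro_E.2 ⟨z.2.1, h⟩)).1

theorem Lb.pt_eq (z : t.P.Fix) (h : t.Lb ρ (z.1.2 ∘ t.ι)) : h.pt = Quo.mk _ z :=
  congrArg (Quo.mk _) (Subtype.ext (Prod.ext (Subsingleton.elim _ _) (t.mem_Fix.1 z.2).2.symm))

theorem ev_lb (z : t.P.Fix) (h : OvP t.P.E.toWt t.P.wt z.1.2 ρ) :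
    ∀ᶠ y : t.P.Fix in 𝓝 z, t.Lb ρ (y.1.2 ∘ t.ι) :=
  (Continuous.tendsto (f := fun y : t.P.Fix => y.1.2 ∘ t.ι) (by fun_prop) z).eventually
    (lb_of_fix z h).ev |>.mono fun y a => let ⟨_, b⟩ := (t.mem_Fix.1 y.2).1; a _ b ▸ b

end TP

namespace As

theorem cont_of_lift {W W' Y : Type} [NormedAddCommGroup W] [NormedSpace ℂ W]
    [NormedAddCommGroup W'] [NormedSpace ℂ W'] [TopologicalSpace Y] {S : Set W} {S' : Set W'}
    {π : S' → Y} (hπ : Continuous π) {g : S → Y} (h : ∀ x : S, ∃ Φ : W → W', AnalyticAt ℂ Φ x.1 ∧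
      ∀ᶠ y : S in 𝓝 x, ∃ a : Φ y ∈ S', g y = π ⟨Φ y, a⟩) : Continuous g := by
  classical
  refine continuous_iff_continuousAt.2 fun x => ?_
  obtain ⟨Φ, a, b⟩ := h x
  obtain ⟨c, d⟩ := b.self_of_nhds
  have e : Tendsto (fun y : S => if f : Φ y ∈ S' then (⟨Φ y, f⟩ : S') else ⟨_, c⟩) (𝓝 x)
      (𝓝 ⟨_, c⟩) := tendsto_subtype_rng.2 ((a.continuousAt.comp
        continuous_subtype_val.continuousAt).congr' (b.mono fun y ⟨f, _⟩ => by simp [f]))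
  rw [ContinuousAt, d]
  exact ((hπ.tendsto _).comp e).congr' (b.mono fun y ⟨f, i⟩ => by rw [i, comp_apply, dif_pos f])

/-- **An end is a part.** -/
theorem pce : PCE := fun _ _ _ _ t V e => by
  have c : ∀ x, t.P.iV e.ρ (e.prs.hol'.q (e.prs.q x)) = t.P.iV e.ρ x := fun x =>
    congrArg _ (e.prs.q_q' x)
  have i : Injective (t.P.iV e.ρ) := Quot.ind fun _ => Quot.ind fun _ a =>
    Quot.sound (QMA.mk_eq (act := t.P.E.actT) a :)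
  refine ⟨(t.P.iV e.ρ).comp e.prs.hol'.q, ⟨i.comp (LeftInverse.injective e.prs.q_q),
    Set.ext fun x => ⟨?_, ?_⟩, fun x => ?_, fun z a => ⟨fun y => y.2 ∘ e.ι,
      (an_pre _ _).comp analyticAt_snd, (TP.ev_lb z a).mono fun y b => ?_⟩⟩, ContinuousMap.ext c⟩
  · rintro ⟨y, rfl⟩
    obtain ⟨y, rfl⟩ := mk_surj y
    exact ⟨_, rfl, (TT.mem_zro_E.1 (e.tors.mem _ y.2)).2⟩
  · rintro ⟨z, rfl, a⟩
    let y : e.prs.F.cone := ⟨z.1, TT.mem_zro_E.2 ⟨z.2.1, a⟩⟩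
    exact ⟨e.prs.q (Quo.mk _ y), c (Quo.mk _ y)⟩
  · obtain ⟨Ψ, a, b⟩ := e.tors.hol _ x.2
    refine ⟨fun y => (0, Ψ y), analyticAt_const.prod a,
      (continuous_subtype_val.continuousAt.eventually b).mono fun y d => ?_⟩
    simp only [← d y.2]
    exact ⟨t.P.cone_V _ (e.tors.mem _ y.2), rfl⟩
  · have d := t.mem_V.2 ⟨b, (t.mem_Fix.1 y.2).2⟩
    exact ⟨e.tors.maps _ d, c (Quo.mk _ ⟨y.1, d⟩)⟩

/-- **A part given by a coordinate projection.** -/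
theorem pcw : PCW := fun _ _ B _ t V ρ i r hr hb h => by
  have ex : ∀ x : V.A, ∃ w, t.Lb ρ w ∧ w ∘ i = x := fun x =>
    let ⟨_, _, a⟩ := h.loc _ x.2
    ⟨_, a.self_of_nhds x.2⟩
  choose s s1 s2 using ex
  have k : ∀ (x : V.A) w (a : t.Lb ρ w), Orb V.π x (w ∘ i) → (s1 x).pt = a.pt := by
    rintro x w a ⟨τ, b, c⟩
    have d : IsUnit (extend r τ 1) := unit_iff.2 fun y => by
      by_cases e : ∃ z, r z = y
      · obtain ⟨z, rfl⟩ := e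
        exact (hr.extend_apply _ _ z).trans_ne (unit_iff.1 b z)
      · exact (extend_apply' _ _ _ e).trans_ne one_ne_zero
    refine ((s1 x).pt_orb ((s1 x).scl d) ⟨_, d, rfl⟩).trans
      (TP.Lb.pt_orb _ a (h.orb _ ((s1 x).scl d) _ a ?_))
    rw [scl_comp hb, extend_comp hr, s2, c]
  have l : ∀ x : V.A, ∃ Φ : _ → (Empty → ℂ) × (t.J → ℂ), AnalyticAt ℂ Φ x.1 ∧
      ∀ᶠ y : V.A in 𝓝 x, ∃ a : Φ y ∈ t.P.Fix, (s1 y).pt = Quo.mk _ ⟨Φ y, a⟩ := fun x => by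
    obtain ⟨σ, a, b⟩ := h.loc _ x.2
    obtain ⟨Ψ, c, d⟩ := t.tors.hol _ (b.self_of_nhds x.2).1.1
    refine ⟨fun y => (0, Ψ (σ y)), analyticAt_const.prod (c.comp a),
      (continuous_subtype_val.continuousAt.eventually
        (b.and (a.continuousAt.eventually d))).mono fun y e => ?_⟩
    obtain ⟨f, g⟩ := e.1 y.2
    simp only [← e.2 f.1]
    exact ⟨t.P.cone_V _ f.mem_V, k y _ f (g.symm ▸ orb_refl _)⟩
  let u : C(V.X, t.P.X) := ⟨Quot.lift (fun x => (s1 x).pt) fun x y a =>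
    k x _ (s1 y) ((s2 y).symm ▸ a), continuous_quot_lift _ (cont_of_lift continuous_quot_mk l)⟩
  have e : ∀ w (a : t.Lb ρ w), u (V.pt ⟨w ∘ i, h.map w a⟩) = a.pt := fun w a =>
    k _ w a (orb_refl _)
  refine ⟨u, ⟨Quot.ind fun x => Quot.ind fun y a => ?_, Set.ext fun x => ⟨?_, ?_⟩, l,
    fun z a => ⟨fun y => y.2 ∘ t.ι ∘ i, (an_pre _ _).comp analyticAt_snd,
      (TP.ev_lb z a).mono fun y b => ⟨h.map _ b, (e _ b).trans (b.pt_eq y)⟩⟩⟩,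
    fun w a => (congrArg _ (e w a)).trans a.j_pt⟩
  · obtain ⟨τ, b, c⟩ := B.pt_eq.1
      ((s1 x).j_pt.symm.trans ((congrArg t.j a).trans (s1 y).j_pt))
    exact Quot.sound ⟨τ ∘ r, unit_comp b r, by
      rw [← s2 x, ← s2 y, ← scl_comp hb]; exact congrArg (· ∘ i) c⟩
  · rintro ⟨y, rfl⟩
    obtain ⟨y, rfl⟩ := mk_surj y
    exact (s1 y).pt_mem
  · rintro ⟨z, rfl, a⟩
    exact ⟨_, (e _ (TP.lb_of_fix z a)).trans (TP.Lb.pt_eq z _)⟩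

end As

end Vale.Agent.P287Q
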