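import Vale.Agent.P287Q.As.St

/-!
# Extension by zero along a biholomorphic part of the fixed locus
-/

set_option linter.unusedSectionVars false

namespace Vale.Agent.P287Q.As

open Set Function Topology Filter TensorProduct P291Z P269 P269.B P269.Ch P269.Loc P269.LG P269.Lz

section gen

open Mf Holo

variable {W W' Y Y' : Type} [NormedAddCommGroup W] [NormedSpace ℂ W] [NormedAddCommGroup W']
  [NormedSpace ℂ W'] [FiniteDimensional ℂ W] [FiniteDimensional ℂ W'] [TopologicalSpace Y]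
  [TopologicalSpace Y'] {S : Set W} {S' : Set W'} {π : S → Y} {π' : S' → Y'} {p q : ℕ}

/-- The differential of an analytic map preserves Zariski tangent spaces of arbitrary sets. -/
theorem fderiv_map_tn {y : W} {Φ : W → W'} (h1 : AnalyticAt ℂ Φ y)
    (h2 : ∀ᶠ s in 𝓝 y, s ∈ S → Φ s ∈ S') {v : W} (hv : v ∈ tn S y) :
    fderiv ℂ Φ y v ∈ tn S' (Φ y) := fun Ψ k1 k2 => by
  refine (SeparatingDual.eq_zero_of_forall_dual_eq_zero (R := ℂ)) fun l => ?_
  have := FiniteDimensional.complete ℂ W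
  have e := hv (l.smulRight v ∘ Ψ ∘ Φ)
    (((l.smulRight v).analyticAt _).comp (k1.comp h1)) (by
      filter_upwards [h1.continuousAt.eventually k2, h2] with s a b c
      rw [comp_apply, comp_apply, a (b c), map_zero])
  rw [((l.smulRight v).hasFDerivAt.comp y
    (k1.differentiableAt.hasFDerivAt.comp y h1.differentiableAt.hasFDerivAt)).fderiv] at e
  rcases smul_eq_zero.1 e with e | rfl
  · exact e
  · simp only [map_zero]

theorem hdAt_lift {x : S} {g : Y → Y'} {Φ : W → W'} (hΦ : AnalyticAt ℂ Φ x)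
    (h : ∀ᶠ y : S in 𝓝 x, ∃ h : Φ y ∈ S', g (π y) = π' ⟨Φ y, h⟩) {a : Coch Y'} {h0 : Φ x ∈ S'}
    (ha : HdAt (fun x => tn S' x) π' p q a ⟨Φ x, h0⟩) :
    HdAt (fun x => tn S x) π p q (pull g a) x := by
  classical
  have := FiniteDimensional.complete ℂ W'
  obtain ⟨F, h1, h2, h3⟩ := ha
  obtain ⟨f, h4, h5, h6⟩ := exists_comp hΦ h1
  let s : S → S' := fun y => if h : Φ y ∈ S' then ⟨_, h⟩ else ⟨_, h0⟩
  have h7 : ∀ᶠ y in 𝓝 x, (s y).1 = Φ y ∧ π' (s y) = g (π y) := h.mono fun y ⟨k1, k2⟩ => by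
    simp only [s, dif_pos k1, k2, and_self]
  have h8 : Tendsto s (𝓝 x) (𝓝 ⟨_, h0⟩) := tendsto_subtype_rng.2
    ((hΦ.continuousAt.tendsto.comp continuous_subtype_val.continuousAt.tendsto).congr'
      (h7.mono fun _ k => k.1.symm))
  refine ⟨f, h4, ?_, fun t v hv => ?_⟩
  · filter_upwards [(Mf.tendsto_diag h8).eventually h2,
      (Mf.tendsto_diag continuous_subtype_val.continuousAt.tendsto).eventually h5, ev_diag h7]
      with z k1 k2 k3
    rw [k2, ← funext fun i => (k3 i).1, ← k1, funext fun i => (k3 i).2]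
    exact congrArg a.1 (List.map_ofFn ..)
  · rw [h6, h6, ← h3 _ _ fun i => fderiv_map_tn hΦ
      ((ev_sub x.2 (p := fun s => Φ s ∈ S')).1 (h.mono fun _ k => k.1)) (hv i)]
    simp only [Pi.smul_apply, map_smul]
    rfl

theorem fn_mul_ofFn {k : ℕ} (g : Y → ℂ) (b : Coch Y) (y : Fin (k + 1) → Y) :
    (fn g * b).1 (List.ofFn y) = g (y 0) * b.1 (List.ofFn y) := by
  rw [mul_val_of_isDeg (p := 0) (isDeg_fn g) b _ (by simp), List.drop_zero, List.ofFn_succ]
  rfl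

/-- A map with analytic lifts over an open and closed set preserves the types on this set. -/
theorem isHd_ext {U : Set Y} (hU : IsClopen U) (hπ : Continuous π) (r : C(Y, Y'))
    (h : ∀ x : S, π x ∈ U → ∃ Φ : W → W', AnalyticAt ℂ Φ x ∧
      ∀ᶠ y : S in 𝓝 x, ∃ h : Φ y ∈ S', r (π y) = π' ⟨Φ y, h⟩)
    {c : H Y'} (hc : c ∈ Hb.HN S' π' p q) :
    hcls (fn (U.indicator 1)) * H.map r c ∈ Hb.HN S π p q := by
  obtain ⟨a, h1, rfl, h2, h3⟩ := Hb.isHd_iff.1 hc
  have c1 := Orb.cocycle_fn.2 (TopP.lc_ind hU)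
  have c2 := cocycle_pull r.continuous h1
  refine Hb.isHd_iff.2 ⟨fn (U.indicator 1) * pull r a, cocycle_mul c1 c2,
    by rw [hcls_mul c1 c2, H.map_hcls _ h1], ((isDeg_fn _).mul (h2.pull _)).cast (zero_add _),
    fun x => ?_⟩
  by_cases hx : π x ∈ U
  · obtain ⟨Φ, k1, k2⟩ := h x hx
    obtain ⟨f, f1, f2, f3⟩ := hdAt_lift k1 k2 (h3 ⟨_, k2.self_of_nhds.1⟩)
    refine ⟨f, f1, ?_, f3⟩
    filter_upwards [f2, ev_diag (hπ.continuousAt.eventually (hU.isOpen.mem_nhds hx))] with y e1 e2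
    rw [fn_mul_ofFn, indicator_of_mem (e2 0), Pi.one_apply, one_mul, e1]
  · obtain ⟨f, f1, f2, f3⟩ := Hb.hdAt_zero (fun x => tn S x) π p q x
    refine ⟨f, f1, ?_, f3⟩
    filter_upwards [f2, ev_diag (hπ.continuousAt.eventually (hU.compl.isOpen.mem_nhds hx))]
      with y e1 e2
    rw [fn_mul_ofFn, indicator_of_notMem (e2 0), zero_mul, ← e1]
    rfl

end gen

/-- **Extension by zero.** -/
theorem pck : PCK := fun n m B wt t V ρ u hU h => by
  have hu : IsEmbedding u := (u.continuous.isClosedEmbedding h.inj).isEmbedding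
  have hU' : IsClopen (range u) := h.rng ▸ hU
  obtain ⟨r, hr⟩ := TopP.exists_retr hu hU'
  have hr' : ∀ x, r (u x) = x := fun x => h.inj (hr _ ⟨x, rfl⟩)
  let i : Hev t.P.X := ⟨hcls (fn ((t.P.XL ρ).indicator 1)), fn_mem_Hev _⟩
  have e0 : t.e ρ = 1 ⊗ₜ i := rfl
  have e1 : pbE u (t.e ρ) = 1 := by
    rw [TP.e, pbE_idE u hU, ← h.rng, preimage_range, idE_univ]
  have e2 : Hev.map u i = 1 := Subtype.ext (by
    rw [Hev.coe_map, TopP.map_fn' u (TopP.lc_ind hU), show ((t.P.XL ρ).indicator 1 ∘ u : _ → ℂ) =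
      fun _ => 1 from funext fun x => indicator_of_mem (h.rng ▸ mem_range_self x) _, fn_one,
      hcls_one]
    rfl)
  refine ⟨LinearMap.mulLeft ℂ i ∘ₗ (Hev.map r).toLinearMap, fun x => ?_, fun x => ?_,
    fun y => ⟨fun e => ?_, fun e => ?_⟩, fun p q x hx => ?_, fun p q y hy => ?_⟩
  · change Hev.map u (i * Hev.map r x) = x
    rw [map_mul, e2, one_mul, Hev.map_map, Hev.map_id hr']
  · change t.e ρ * 1 ⊗ₜ (i * Hev.map r x) = 1 ⊗ₜ (i * Hev.map r x)
    rw [← one_mul (1 : F), ← Algebra.TensorProduct.tmul_mul_tmul, ← e0]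
    exact (mul_assoc (t.e ρ) _ _).symm.trans (congrArg (· * _) (idE_mul_self hU))
  · rw [TP.e, ← h.rng]
    exact piece_eq_zero_emb hu hU' e
  · rw [← one_mul (pbE u y), ← e1, ← map_mul, e, map_zero]
  · change i.1 * H.map r x.1 ∈ Hb.HT _ _ p q
    change x.1 ∈ Hb.HT _ _ p q at hx
    unfold Hb.HT at hx ⊢
    split_ifs at hx ⊢ with h0
    · refine isHd_ext hU Tq.continuous_mk r (fun z ⟨z', k1, k2⟩ => ?_) hx
      obtain ⟨a, -, k3⟩ := Tq.QMA.mk_eq k1.symm
      obtain ⟨Φ, k4, k5⟩ := h.loh z (k3 ▸ t.P.ovP_act k2 _)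
      exact ⟨Φ, k4, k5.mono fun y ⟨k6, k7⟩ => ⟨k6, by rw [← k7, hr']⟩⟩
    · rw [(Submodule.mem_bot _).1 hx, map_zero, mul_zero]
      exact zero_mem _
  · change H.map u y.1 ∈ Hb.HT _ _ p q
    change y.1 ∈ Hb.HT _ _ p q at hy
    unfold Hb.HT at hy ⊢
    split_ifs at hy ⊢ with h0
    · exact Mf.IsHd.pull_lift' (fun x hx => ⟨_, V.pv.mfd x hx⟩) u h.hol hy
    · rw [(Submodule.mem_bot _).1 hy, map_zero]
      exact zero_mem _

end Vale.Agent.P287Q.As
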