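import Vale.Agent.P287Q.As.HVE
import Vale.Agent.P287Q.Qz.Fin
import Vale.Agent.P287Q.Qz.Cas
import Vale.Agent.P287Q.Qz.Nd
import Vale.Agent.P287Q.Qz.Spl
import Vale.Agent.P287Q.G.Qrr.QC
import Vale.Agent.P287Q.G.Fg.UcC
import Vale.Agent.P287Q.G.Fg.Main

/-!
# The twisted invariants lie in the algebra of the untwisted ones
-/

namespace Vale.Agent.P287Q

theorem As.qr0 : As.QR0 :=
  fun _ _ φ _ _ _ _ h hφ hη hA hm hl h0 T b y m d =>
    h.qr0_of P269.St.qc (P269.St.ucS P269.St.forget P269.St.well) P269.St.ndS P269.St.spl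
      P269.St.casE (.ofBijective φ hφ) hη hl hA hm h0 T b y m d

end Vale.Agent.P287Q
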