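import Vale.Agent.P287Q.As.St
import Vale.Agent.P287Q.Lz.All
import Vale.Agent.P287Q.Lz.PkI
import Vale.Agent.P287Q.Lz.Ex
import Vale.Agent.P287Q.Lam.Cas
import Vale.Agent.P287Q.G.Glu.NdG

/-!
# Existence of the localised theory
-/

set_option linter.unusedSectionVars false

namespace Vale.Agent.P287Q

open Set Function Topology Filter TensorProduct P291Z P269 P269.B P269.Ch P269.Loc P269.LG P269.Lz

variable {n : ℕ} {B : Var n} {wt : B.J → Unit → ℤ} (t : TP B wt)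

theorem TP.eff : t.P.Eff := fun _ _ m h r U _ => by
  obtain ⟨u, a, b, -⟩ := Cv.exists_gen (L := m.L r) le_rfl (fun x => by
    obtain ⟨j, a, b⟩ := B.pv.sub (t.tors.maps _ (h.2.2 x)) r
    have c := (h.2.1 (t.ι j)).1
    rw [t.tors.w, id, a, Cv.bz_single, zpow_one] at c
    exact ⟨_, c, b⟩) finite_empty
  exact (Cv.Eff.ge ⟨u, a, b⟩).nonneg U

theorem TP.eqv_b : Tq.Eqv t.P.E.actT (t.P.EM 0).actT t.P.E.cone (t.P.EM 0).cone
    fun z => (1, z.2) :=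
  ⟨fun _ h => TT.mem_fam h fun _ => ⟨0, one_ne_zero⟩, by fun_prop, fun s hs z _ =>
    ⟨(1, s.2), isUnit_T.2 ⟨fun _ => one_ne_zero, (isUnit_T.1 hs).2⟩,
      ((TT.act_one s.2 (1, z.2)).trans (congrArg₂ (fun u v => (1, (t.P.E.actT u v).2))
        (Prod.ext (Subsingleton.elim _ _) rfl) (Prod.ext (Subsingleton.elim _ _) rfl))).symm⟩⟩

theorem li_a₁ : LinearIndependent ℚ a₁ := linearIndependent_unique_iff.2 one_ne_zero

theorem As.sys_of (hG : St.GNc) (hT : ∀ (n : ℕ) (B : Var n) (wt) (t : TP B wt),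
    ∃ g : TG t.P a₁, g.Cas) : As.SYS := fun n B wt t => by
  obtain ⟨T, ⟨G⟩⟩ := exists_geo t.ok li_a₁
  obtain ⟨g, c⟩ := hT n B wt t
  obtain ⟨_, e, f, h⟩ := G.hp t.ok li_a₁ g hG c t.eff
  exact ⟨⟨T, G, g, t.eqv_b.qm, fun _ => ⟨_, rfl⟩, h.pk, h.pk_η, fun _ _ _ => h.pk_CS,
    fun _ _ _ d => h.pk_E d, fun _ _ _ => h.clopen_com, h.clopen_qv⟩⟩

/-- **the localised theory exists** -/
theorem As.sys : As.SYS := As.sys_of St.gnc fun _ _ _ t =>
  (t.ok.exists_TG li_a₁).elim fun g => ⟨g, g.cas t.ok li_a₁⟩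

end Vale.Agent.P287Q
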