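import Vale.Agent.P287Q.As.St
import Vale.Agent.P287Q.Sf.Top

/-!
# Classes of top degree and of degree zero on a variety
-/

set_option linter.unusedSectionVars false

namespace Vale.Agent.P287Q.As

open Set Function Topology Filter TensorProduct P291Z P269 P269.B P269.Ch P269.Loc P269.LG

namespace TopC

theorem tmul_aux {K A : Type} [CommRing K] [Algebra ℂ K] [CommRing A] [Algebra ℂ A]
    (φ : K ⊗[ℂ] A →ₐ[K] K) {e : A → ℂ} (h1 : ∀ k b, φ (k ⊗ₜ b) = k * algebraMap ℂ K (e b)) {c : A}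
    (h2 : ∀ b, c * b = e b • c) (y : K ⊗[ℂ] A) : 1 ⊗ₜ c * y = φ y • (1 ⊗ₜ c : K ⊗[ℂ] A) := by
  induction y with
  | zero => rw [mul_zero, map_zero, zero_smul]
  | add a b ha hb => rw [mul_add, map_add, add_smul, ha, hb]
  | tmul k b =>
    rw [Algebra.TensorProduct.tmul_mul_tmul, one_mul, h1, smul_tmul', smul_eq_mul, mul_one, h2,
      ← smul_tmul, Algebra.smul_def, mul_comm]

variable {X : Type} [TopologicalSpace X] [Nice X] [CompactSpace X] [ConnectedSpace X] {d : ℤ}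
  {β : BM X} (ho : Orb.Ori d β)
include ho

theorem smul {c c' : H X} (hc : H.IsDeg d c) (hc' : H.IsDeg d c') (h0 : c ≠ 0) :
    ∃ a : ℂ, c' = a • c := by
  refine ⟨intg β c' / intg β c, sub_eq_zero.1 (Sf.Top_inj ho
    ((H.deg X d).sub_mem hc' ((H.deg X d).smul_mem _ hc)) ?_)⟩
  rw [map_sub, map_smul, smul_eq_mul, div_mul_cancel₀ _ (mt (Sf.Top_inj ho hc) h0), sub_self]

theorem pt (x : X) : ∃ a : Coch X, supp (δ a) = ∅ ∧ supp a ⊆ {x} ∧ H.IsDeg d (hcls a) ∧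
    hcls a ≠ 0 := by
  obtain ⟨a, h1, h2⟩ := ho.gen x
  exact ⟨a, h1.cyc, h1.pt, hcls_isDeg h1.deg, fun e => h2 (by
    rw [← intg_hcls β h1.cyc, e, map_zero])⟩

theorem big {k : ℤ} {c : H X} (hc : H.IsDeg k c) (hk : d < k) : c = 0 :=
  Zc.ZLat.nondeg_deg ho hc fun y hy => by rw [hy.eq_zero (by omega), zero_mul, map_zero]

theorem mul {c : H X} (hc : H.IsDeg d c) (x : X) (e : H Unit →ₐ[ℂ] ℂ) (b : H X) :
    c * b = e (H.map (ContinuousMap.const Unit x) b) • c := by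
  obtain ⟨N, hN⟩ := H.exists_sum_comp b
  rw [← hN N le_rfl, Finset.mul_sum, map_sum, map_sum, Finset.sum_smul]
  refine Finset.sum_congr rfl fun k _ => ?_
  have h1 := H.isDeg_comp (k : ℤ) b
  rcases k.eq_zero_or_pos with rfl | hk
  · obtain ⟨t, ht⟩ := Sf.Top_deg_zero h1
    rw [ht, mul_smul_comm, mul_one, H.map_smulC, map_smul, map_one, map_one, smul_eq_mul, mul_one]
  · rw [big ho (hc.mul h1) (by omega), H.map_const_eq_zero x (by omega) h1, map_zero, zero_smul]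

theorem tmul {c : Hev X} (hc : H.IsDeg d c.1) (x : X) (y : F ⊗[ℂ] Hev X) :
    1 ⊗ₜ c * y = ptE x y • (1 ⊗ₜ c : F ⊗[ℂ] Hev X) :=
  tmul_aux (ptE x) (ptE_tmul x) (fun b => Subtype.ext (mul ho hc x exists_pt.choose b.1)) y

theorem map_eq_zero {c : H X} (hc : H.IsDeg d c) {x : X} {T : Type} [TopologicalSpace T]
    (f : C(T, X)) (hx : x ∉ range f) : H.map f c = 0 := by
  obtain ⟨a, h1, h2, h3, h4⟩ := pt ho x
  obtain ⟨t, rfl⟩ := smul ho h3 hc h4
  rw [H.map_smulC, H.map_hcls f h1, (hcls_eq_zero (cocycle_pull f.continuous h1)).2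
    ⟨0, eq_empty_of_forall_notMem fun y hy => ?_⟩, smul_zero]
  rw [map_zero, sub_zero] at hy
  exact hx ⟨y, h2 (supp_pull f.continuous a hy)⟩

end TopC

theorem topc : TOPC := fun n V => by
  have := V.nice
  have ho := V.qm.ori
  obtain ⟨x₀⟩ : Nonempty V.X := inferInstance
  obtain ⟨a, -, -, h1, h2⟩ := TopC.pt ho x₀
  exact ⟨⟨_, h1, h2⟩, fun _ _ => TopC.smul ho, fun _ _ => TopC.big ho, fun _ => Sf.Top_deg_zero,
    fun k c x hc hk => by rw [ptE_tmul, H.map_const_eq_zero x hk hc, map_zero, map_zero, mul_zero],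
    fun _ x hc => TopC.tmul ho hc x, fun _ _ _ _ f hc => TopC.map_eq_zero ho hc f⟩

end Vale.Agent.P287Q.As
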