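import Vale.Agent.P287Q.As.LAM
import Vale.Agent.P287Q.Lam.TyB

/-! The weights on the state space. -/

namespace Vale.Agent.P287Q.As

open Set Function TensorProduct P291Z P269 P269.B P269.Ch P269.Loc P269.LG P269.Lz Lam

theorem typ : TYP := fun n B wt t s => by
  obtain ⟨h1, -, -, h2, -⟩ := lam n B wt t s
  have b := t.ok.bg_fix
  have e (k) : t.Ty k = TyK F t.P.TyF k := congrArg (Submodule.baseChange F) (b.WE_eq k).symm
  simp only [e]
  refine ⟨b.TyK_top, b.TyK_one, fun _ _ _ hx _ hy => b.TyK_mul hx hy,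
    fun k => s.g.ty_span t.ok (fun x => ?_) k⟩
  exact (Submodule.map_span_le (inF t.P.X).toLinearMap _ _).2
    (fun y hy => Submodule.subset_span (h1 y hy)) ⟨x, h2.ge trivial, rfl⟩

end Vale.Agent.P287Q.As
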