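import Vale.Agent.P287Q.As.A
import Vale.Agent.P287Q.As.LBL
import Vale.Agent.P287Q.As.PC
import Vale.Agent.P287Q.As.PCK
import Vale.Agent.P287Q.As.TOPC
import Vale.Agent.P287Q.As.TYP
import Vale.Agent.P287Q.As.Sys
import Vale.Agent.P287Q.As.CST
import Vale.Agent.P287Q.As.LFT
import Vale.Agent.P287Q.As.Glob
import Vale.Agent.P287Q.As.MOV
import Vale.Agent.P287Q.As.GI
import Vale.Agent.P287Q.As.QR0
import Vale.Agent.P287Q.As.FIB
import Vale.Agent.P287Q.Pcs.HdgAll
import Vale.Agent.P287Q.Pcs.Hod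
import Vale.Agent.P287Q.Pcs.Trr
import Vale.Agent.P287Q.Us.Master
import Vale.Agent.P287Q.Wg.GA

/-!
# The inputs of the two theorems on master spaces
-/

namespace Vale.Agent.P287Q.As

theorem inp : Inp :=
  ⟨sys, lbl, pce, pcw, pck, topc, lam, lft, typ, glob H3.inp H3.stC1', As.cst, mov lbl,
    gi Pcs.hdg Pcs.trn, hve qr0 Pcs.l11 lbl, fib⟩

/-- **Theorem A.** -/
theorem thmA' : Top.THMA := thmA inp master wga

end Vale.Agent.P287Q.As
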