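import Vale.Agent.P287Q.As.C
import Vale.Agent.P287Q.Lz.PkA
import Vale.Agent.P287Q.Wg.TP

/-!
# Theorem A
-/

set_option maxSynthPendingDepth 3

namespace Vale.Agent.P287Q

open Set Function Module TensorProduct P291Z P269 P269.B P269.Ch P269.Loc P269.LG P269.Lz As

namespace GA

variable {n : ℕ} {Y X : Var n} {p : Ext Y X} (a : GA p)

theorem fib : Fib a.pX a.ab {x | x ∈ X.A ∧ a.G x ≠ 0} a.φ where
  inj := a.ab_inj
  blk := a.ab_blk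
  off := a.ab_X
  opn := ⟨_, isOpen_ne_fun (continuous_iff_continuousAt.2 fun x => (a.frm.an x).continuousAt)
    continuous_const, rfl⟩
  inv t ht x h := ⟨X.pv.inv t ht x h.1, a.frm.hom t ht x ▸ mul_ne_zero
    (Finset.prod_ne_zero_iff.2 fun r _ => pow_ne_zero _ (Pi.isUnit_iff.1 ht r).ne_zero) h.2⟩
  ne := a.ne
  gen := by simpa only [mem_ofPred_eq, and_assoc] using a.gen

/-- The weight of the perturbation. -/
noncomputable def χ : a.B.R → ℤ := Pi.single (a.B.π a.jτ) 2 + Pi.single (a.B.π (a.ab true)) 1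

theorem lb_ab {ρ w} (h : a.t.Lb ρ w) :
    ρ () (a.B.π (a.ab true)) = 0 ∨ ρ () (a.B.π (a.ab true)) = 1 := by
  obtain ⟨j, e, k⟩ := a.B.pv.sub h.1 (a.B.π (a.ab true))
  have := h.eq k
  obtain ⟨_ | _, rfl⟩ := (a.ab_blk j).1 e
  · exact .inl (e ▸ this.trans (congrFun a.wtb ()))
  · exact .inr (this.trans (congrFun a.wta ()))

theorem dot_ne {ρ w w'} (h : a.t.Lb ρ w) (h' : a.t.Lb a.ρs w') (e : ρ ≠ a.ρs) :
    ρ () ⬝ᵥ a.χ ≠ a.ρs () ⬝ᵥ a.χ := by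
  have := a.lb_ab h
  have := a.lb_ab h'
  simp only [χ, dotProduct_add, dotProduct_single, a.src_τ, a.oth_τ ρ w h e]
  omega

theorem src_pa (I : Inp) : ∃ b : Pa a.t a.ρs X, b.pr a.pX = .id _ := by
  obtain ⟨u, h1, h2⟩ := I.pcw _ _ a.B a.wt a.t X a.ρs _ _ a.pX.injR a.pX.blk a.src
  obtain ⟨b, rfl⟩ := I.pa h1
  refine ⟨b, ContinuousMap.ext (X.pt_surj.forall.2 fun x => ?_)⟩
  obtain ⟨s, -, h⟩ := a.src.loc x.1 x.2
  obtain ⟨h3, h4⟩ := h.self_of_nhds x.2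
  have e : x = ⟨_, a.src.map _ h3⟩ := Subtype.ext h4.symm
  rw [e]
  exact congrArg a.pX.q (h2 _ h3)

end GA

theorem As.thmA (I : Inp) (hM : MASTER) (hW : WGA) : Top.THMA := by
  intro V W f hf ok hP
  obtain ⟨a⟩ := hW _ V W f ok.prs hP (hM _ V W f hf)
  obtain ⟨s⟩ := I.sys _ a.B a.wt a.t
  obtain ⟨φ, D⟩ := I.dg a.t a.fib
  obtain ⟨b₁, e₁⟩ := a.src_pa I
  obtain ⟨b₂⟩ := I.en a.snk ok.h20
  have e₂ : b₂.pr a.pX = f.q := ContinuousMap.ext (V.pt_surj.forall.2 fun y =>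
    (congrArg a.pX.q (b₂.j_u y).2).trans (W.pt_eq.2 (a.snk_X y.1 y.2).symm))
  obtain ⟨v₁⟩ := W.conn'.toNonempty
  obtain ⟨v₂⟩ := V.conn'.toNonempty
  obtain ⟨c, hc, c0⟩ := (I.topc _ W).1
  obtain ⟨ε, h0, hg⟩ := I.lift s
  obtain ⟨g, g1, g2⟩ := hg a.χ a.snk.ρ
  obtain ⟨l1, l2, l3, -⟩ := I.lbl _ a.B a.wt a.t
  have h20 : W.Hg 2 0 = ⊥ := eq_bot_iff.2 fun x k =>
    hf.pb_inj ((ok.h20.le (f.pb_mem k)).trans (map_zero _).symm)
  have M := D.msC I s a.fib a.wtX b₁ b₂.toPa a.src_ne v₁ v₂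
    (fun ρ w k o => (or_assoc.2 (a.oth ρ w k)).resolve_right o.2) (c := ⟨c, mem_Hev hc⟩) hc
    (fun e => c0 (by rw [e₁] at e; exact (H.map_id (fun _ => rfl) c).symm.trans (congrArg Subtype.val e)))
    (fun e => c0 (hf.pb_inj (by
      rw [e₂] at e; exact (congrArg Subtype.val e).trans (map_zero _).symm)))
    (D.dot (add_nonneg (Pi.single_nonneg.2 zero_le_two) (Pi.single_nonneg.2 zero_le_one))
      (add_pos_of_nonneg_of_pos ((Pi.single_nonneg (α := fun _ => ℤ)).2 zero_le_two _) (by simp))) g1 g2 (by simp)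
  refine (Lz.pkA s.Q (W := f.im.comap (V.Hg 3 1).subtype) ⟨M, b₂.nd I s,
    ⟨iv _, (mul_iv _).trans ((congrArg (idE ·ᶜ) (Set.ext fun x => ?_)).trans (idE_compl b₁.cl))⟩,
    (b₁.rank31 h20).trans_le ((Submodule.equivMapOfInjective _ hf.pb_inj _).trans
      (Submodule.comapSubtypeEquivOfLe f.im_le).symm).finrank_eq.le, ?_,
    fun w _ y hy => b₂.sc31 I.topc ok.h20 v₂ w hy⟩).elim fun T hT => ⟨_, b₂.gi.prj b₂.pcs f hT⟩
  · obtain ⟨ρ, k, -⟩ := l2 x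
    have z := pt_res I.topc b₁.cl (b₁.mem v₁) (g2 _)
    rw [mem_ofPred_eq, map_sub, AlgHom.commutes, pt_res I.topc (l1 ρ) k (g2 ρ), sub_eq_zero]
    refine ⟨fun e => by_contra fun k' => ?_, fun k' => (l2 x).unique k' k ▸ z.symm⟩
    obtain ⟨w, h, -⟩ := (l3 ρ x).1 k
    obtain ⟨w', h', -⟩ := (l3 _ _).1 (b₁.mem v₁)
    have := smul_left_injective ℂ (fun e : tt = 0 => tt_tr (e ▸ isAlgebraic_zero)) (e.trans z)
    rw [mul_right_inj' h0, Int.cast_inj, sub_dotProduct, sub_dotProduct, sub_left_inj] at this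
    exact a.dot_ne h h' (fun e => k' (e ▸ k)) this
  · rintro w ⟨x, hx, e⟩
    refine ⟨_, ((I.mov _ a.B a.wt a.t s).2.2.1 _ W a.pX).1 (W.i31 ⟨x, hx⟩), ?_⟩
    rw [b₂.e_cl, e₂]
    exact congrArg b₂.k (Subtype.ext e.symm)

end Vale.Agent.P287Q
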