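import Vale.Agent.P287Q.As.Pa
import Vale.Agent.P287Q.G.LG.Loc1
import Vale.Agent.P287Q.Hb.L11
import Vale.Agent.P287Q.Us.Sct

/-!
# The hypotheses that are common to both master spaces
-/

set_option linter.unusedSectionVars false
set_option maxSynthPendingDepth 3

namespace Vale.Agent.P287Q.As

open Set Function Module TensorProduct P291Z P269 P269.B P269.Ch P269.Loc P269.LG P269.Lz

section gen

variable {n : ℕ} {B : Var n} {wt : B.J → Unit → ℤ} {t : TP B wt} {s : Sy t}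
  {ρ : Unit → B.R → ℤ}

theorem tt_tr : Transcendental ℂ tt :=
  transcendental_iff.2 fun _ h => L1.aeval_inj (h.trans (map_zero _).symm)

theorem Lt_mem {x c} (h : s.Lt x c) : x ∈ s.Λ := let ⟨α, a, _⟩ := h; Algebra.subset_adjoin ⟨α, a⟩

theorem sum_e (hL : LBL) {S : Finset (Unit → B.R → ℤ)} (h : ∀ ρ w, t.Lb ρ w → ρ ∈ S) :
    ∑ ρ ∈ S, t.e ρ = 1 := by
  obtain ⟨h1, h2, h3, -⟩ := hL _ B wt t
  rw [← fnE_one]
  refine (fnE_sum S fun ρ _ => isLocallyConstant_ind (h1 ρ)).symm.trans (congrArg fnE ?_)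
  funext x
  obtain ⟨ρ, a, b⟩ := h2 x
  obtain ⟨w, c, -⟩ := (h3 ρ x).1 a
  rw [Finset.sum_apply, Finset.sum_eq_single_of_mem ρ (h ρ w c)
    fun ρ' _ e => indicator_of_notMem (fun k => e (b ρ' k)) _, indicator_of_mem a]

theorem exists_lbl (hL : LBL) : ∃ S : Finset (Unit → B.R → ℤ), ∀ ρ w, t.Lb ρ w → ρ ∈ S := by
  obtain ⟨h1, h2, h3, h4, -⟩ := hL _ B wt t
  obtain ⟨S, hS⟩ := isCompact_univ.elim_finite_subcover t.P.XL (fun ρ => (h1 ρ).isOpen)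
    fun x _ => mem_iUnion.2 (h2 x).exists
  refine ⟨S, fun ρ w k => ?_⟩
  let x : t.P.X := Quo.mk _ ⟨_, t.tors.mem w k.1, ρ, k.2⟩
  obtain ⟨ρ', a, b⟩ := mem_iUnion₂.1 (hS (mem_univ x))
  exact (h2 x).unique b ⟨_, rfl, k.2⟩ ▸ a

theorem mem_of_e (hL : LBL) {N : Submodule F t.HH} {y : t.HH} (h : ∀ ρ, t.e ρ * y ∈ N) : y ∈ N := by
  obtain ⟨S, hS⟩ := exists_lbl (t := t) hL
  rw [← one_mul y, ← sum_e hL hS, Finset.sum_mul]
  exact sum_mem fun ρ _ => h ρ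

theorem cl_Ty (hL : LBL) {p j : ℤ} {x : Hev B.X} (hx : x ∈ B.TE p (p - j)) : t.cl x ∈ t.Ty j :=
  Submodule.tmul_mem_baseChange_of_mem 1
    (Submodule.mem_iSup_of_mem p ((hL _ B wt t).2.2.2.2.1 _ _ x hx))

theorem le_Ty (hL : LBL) (χ : B.R → ℤ) : t.cl (B.le χ) ∈ t.Ty 0 := cl_Ty hL (p := 1) (B.lc_mem χ)

variable (s) in
theorem Inp.typed (I : Inp) : s.Q.Typed t.Ty :=
  let ⟨a, b, c, d⟩ := I.typ _ B wt t s
  ⟨a, b, c, I.glob _ B wt t s d⟩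

variable (s) in
theorem Inp.sp (I : Inp) (k : ℤ) : t.Ty k ≤ Submodule.span F ((s.Λ : Set t.HH) ∩ t.Ty k) :=
  let d := (I.typ _ B wt t s).2.2.2 k
  d.le.trans (Submodule.span_mono fun _ a => ⟨let ⟨α, b, _⟩ := a; Algebra.subset_adjoin ⟨α, b⟩,
    d.ge (Submodule.subset_span a)⟩)

theorem Inp.res_Ty (I : Inp) (s : Sy t) {g : t.HH} {χ : B.R → ℤ} {w : (Unit → B.R → ℤ) → F}
    (h : ∀ ρ, t.e ρ * g = t.e ρ * (t.cl (B.le χ) + P287Q.cst t.HH (w ρ))) : g ∈ t.Ty 0 :=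
  mem_of_e I.lbl fun ρ => h ρ ▸ (I.typed s).mul 0 0 _ ((I.lbl _ B wt t).2.2.2.2.2.1 ρ) _
    (add_mem (le_Ty I.lbl χ) (Algebra.algebraMap_eq_smul_one (A := t.HH) (w ρ) ▸
      Submodule.smul_mem _ _ (I.typed s).one))

variable (s) in
/-- The lifts of the line bundles that are trivial on the part `ρ₀`. -/
theorem Inp.lift (I : Inp) : ∃ ε : ℂ, ε ≠ 0 ∧ ∀ χ (ρ₀ : Unit → B.R → ℤ), ∃ g, s.Lt g (B.lc χ) ∧
    ∀ ρ, t.e ρ * g =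
      t.e ρ * (t.cl (B.le χ) + P287Q.cst t.HH ((ε * ((ρ () - ρ₀ ()) ⬝ᵥ χ : ℤ)) • tt)) := by
  obtain ⟨-, h1, h2, h3, -, ε, h4, h5⟩ := I.lft _ B wt t s
  refine ⟨ε, h4, fun χ ρ₀ => ?_⟩
  obtain ⟨h, a, b⟩ := h5 χ
  have c := (h2 _ _ _ _ a (h3 (-(ε * (ρ₀ () ⬝ᵥ χ : ℤ))) _ _ h1)).1
  rw [smul_zero, add_zero] at c
  refine ⟨_, c, fun ρ => ?_⟩
  rw [mul_add, b, ← mul_add, add_assoc, sub_dotProduct, Int.cast_sub, mul_sub, sub_eq_add_neg,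
    add_smul, map_add]
  simp only [Algebra.algebraMap_eq_smul_one, smul_assoc]

theorem e_mul_zero (hρ : IsClopen (t.P.XL ρ)) {y : t.HH}
    (h : pbE (⟨Subtype.val, continuous_subtype_val⟩ : C(t.P.XL ρ, _)) y = 0) : t.e ρ * y = 0 := by
  have := piece_eq_zero_emb (φ := ⟨Subtype.val, continuous_subtype_val⟩)
    Topology.IsEmbedding.subtypeVal (Subtype.range_coe.symm ▸ hρ) h
  rwa [ContinuousMap.coe_mk, Subtype.range_coe] at this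

end gen

variable {n : ℕ} {B : Var (n + 1)} {X : Var n} {wt : B.J → Unit → ℤ} {t : TP B wt} {π : Ext B X}
  {ab : Bool → B.J} {O : Set (X.J → ℂ)} {σ : (X.J ⊕ Bool → ℂ) → B.J → ℂ} {φ : B.R →₀ ℕ}

variable (t π ab O φ) in
/-- `φ` is the degree of the general fibre. -/
structure Dg : Prop where
  one : φ (B.π (ab true)) = 1
  zero : ∀ r, φ (π.iR r) = 0
  supp : ∀ (ν : Type) [Fintype ν] (m : AM1 B.R t.J ν) (d : B.R → ℤ), m.Sol t.P.E → m.Conn →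
    m.Typ 0 d → (∀ r, d (π.iR r) = 0) → ∀ z, (m.vl z).2 ∘ t.ι ∘ π.iJ ∈ O →
      ∃ k : ℕ, d = fun r => (k * φ r : ℤ)
  cnt : ∀ c : H X.X, H.IsDeg (2 * n) c → c ≠ 0 → ∀ χ : B.R → ℤ, (χ ⬝ᵥ fun r => φ r) ≠ 0 →
    t.prs.gw' (fun r => φ r) [(0, B.lc χ), (0, B.lc χ), (0, π.pb c * B.lc χ)] ≠ 0

theorem Inp.dg (I : Inp) (t : TP B wt) (f : Fib π ab O σ) : ∃ φ, Dg t π ab O φ :=
  let ⟨φ, a, b, c, d⟩ := I.fib n B X wt t π ab O σ f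
  ⟨φ, a, b, c, d⟩

theorem Dg.dot (D : Dg t π ab O φ) {χ : B.R → ℤ} (h : 0 ≤ χ) (h' : 0 < χ (B.π (ab true))) :
    (χ ⬝ᵥ fun r => φ r) ≠ 0 :=
  (Finset.sum_pos' (fun r _ => mul_nonneg (h r) (Nat.cast_nonneg _))
    ⟨B.π (ab true), Finset.mem_univ _, by simpa [D.one] using h'⟩).ne'

/-- The class of the fibre vanishes away from the open set. -/
theorem pb_fib (hT : TOPC) (f : Fib π ab O σ) {c : Hev X.X} (hc : H.IsDeg (2 * n) c.1) {T : Type}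
    [TopologicalSpace T] (u : C(T, t.P.X))
    (h : ∀ τ, ∃ w : B.A, t.j (u τ) = B.pt w ∧ w.1 ∘ π.iJ ∉ O) :
    pbE u (t.cl (Hev.map π.q c)) = 0 := by
  obtain ⟨x, hx⟩ := f.ne
  obtain ⟨U, -, e⟩ := f.opn
  have := (hT _ X).2.2.2.2.2.2 c.1 (X.pt ⟨x, (e.le hx).1⟩) T (π.q.comp (t.j.comp u)) hc (by
    rintro ⟨τ, a⟩
    obtain ⟨w, b, k⟩ := h τ
    rw [ContinuousMap.comp_apply, ContinuousMap.comp_apply, b, π.q_pt, X.pt_eq] at a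
    exact k (a.symm.mem f.inv hx))
  rw [TP.cl, pbE_tmul, show Hev.map u (Hev.map t.j (Hev.map π.q c)) = 0 from Subtype.ext
    (((H.map_map _ _ _).trans (H.map_map _ _ _)).trans this), tmul_zero]

/-- The class of the fibre is killed in the degrees that are not multiples of `φ`. -/
theorem Dg.van (D : Dg t π ab O φ) (I : Inp) (s : Sy t) (f : Fib π ab O σ) {c : Hev X.X}
    (hc : H.IsDeg (2 * n) c.1) {d : B.R →₀ ℕ} (h0 : ∀ r, d (π.iR r) = 0)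
    (hd : ∀ k : ℕ, d ≠ k • φ) (i x l) :
    s.Q.C d 0 ((i, t.cl (Hev.map π.q c) * x) ::ₘ l) = 0 :=
  (I.mov _ B wt t s).2.2.2 d _ (fun T _ u hu => pb_fib I.topc f hc u fun τ => by
    obtain ⟨ν, _, m, a, h1, h2, h3, h4⟩ := hu (mem_range_self τ)
    refine ⟨⟨_, t.tors.maps _ h3.1⟩, congrArg t.j h4, fun k => ?_⟩
    obtain ⟨k, e⟩ := D.supp ν m _ h1.sol h2 h1.typ (fun r => by simp [h0]) _ k
    exact hd k (Finsupp.ext fun r => Nat.cast_injective (R := ℤ) (by simpa using congrFun e r))) i x l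

/-- **The common hypotheses.** -/
theorem Dg.msC (D : Dg t π ab O φ) (I : Inp) (s : Sy t) (f : Fib π ab O σ)
    (hw : ∀ j, wt (π.iJ j) = 0) {V₁ V₂ : Var n} {ρ₁ ρ₂} (a₁ : Pa t ρ₁ V₁) (a₂ : Pa t ρ₂ V₂)
    (hne : ρ₁ ≠ ρ₂) (v₁ : V₁.X) (v₂ : V₂.X)
    (oth : ∀ ρ w, t.Lb ρ w → w ∘ π.iJ ∈ O → ρ = ρ₁ ∨ ρ = ρ₂) {c : Hev X.X}
    (hc : H.IsDeg (2 * n) c.1) (h₁ : Hev.map (a₁.pr π) c ≠ 0) (h₂ : Hev.map (a₂.pr π) c ≠ 0)
    {χ : B.R → ℤ} (hχ : (χ ⬝ᵥ fun r => φ r) ≠ 0) {g : t.HH} (hg : s.Lt g (B.lc χ))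
    {w : (Unit → B.R → ℤ) → ℂ}
    (hr : ∀ ρ, t.e ρ * g = t.e ρ * (t.cl (B.le χ) + cst t.HH (w ρ • tt))) (h0 : w ρ₂ = 0) :
    s.Q.MsC tt t.Ty s.Λ (range π.iR)ᶜ (t.cl (Hev.map π.q c)) (t.e ρ₁) (t.e ρ₂) g (a₁.z v₁)
      (a₂.z v₂) φ := by
  classical
  obtain ⟨-, l2, l3, l4, -⟩ := I.lam _ B wt t s
  obtain ⟨-, f2, f3, -, f5, -⟩ := I.lft _ B wt t s
  obtain ⟨m1, -, m3, -⟩ := I.mov _ B wt t s
  obtain ⟨b1, -, b3, -⟩ := I.lbl _ B wt t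
  have hp := f5 _ X π hw c
  have e₁ := (mul_comm _ _).trans (a₁.e_cl π c)
  have e₂ := (mul_comm _ _).trans (a₂.e_cl π c)
  have c0 : c.1 ≠ 0 := fun e => h₁ (by rw [show c = 0 from Subtype.ext e, map_zero])
  have φ0 : φ ≠ 0 := fun e => by simpa [e] using D.one
  refine ⟨tt_tr, I.typed s, Lt_mem f2, l2, l3, l4, I.sp s 2, Lt_mem hp, (m3 _ X π).1 c, m1 _, m1 _,
    a₁.prt.idem, ?_, fun y => e₁ ▸ a₁.k_top I.topc (hc.map _) v₁ y,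
    fun y => e₂ ▸ a₂.k_top I.topc (hc.map _) v₂ y,
    fun e => h₁ (a₁.k_inj ((e₁.symm.trans e).trans (map_zero _).symm)),
    fun e => h₂ (a₂.k_inj ((e₂.symm.trans e).trans (map_zero _).symm)), Lt_mem hg, I.res_Ty s hr,
    ⟨w ρ₁ • .X, (pt_res I.topc a₁.cl (a₁.mem v₁) (hr ρ₁)).trans (by simp), by simp⟩,
    (pt_res I.topc a₂.cl (a₂.mem v₂) (hr ρ₂)).trans (by rw [h0, zero_smul]), ?_, φ0,
    fun d h1 h2 x y => ?_, ?_⟩
  · obtain ⟨S, hS⟩ := exists_lbl (t := t) I.lbl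
    have := sum_e I.lbl (S := {ρ₁, ρ₂} ∪ S) fun ρ w k => Finset.mem_union_right _ (hS ρ w k)
    conv_lhs => rw [← mul_one (t.cl _), ← this, Finset.mul_sum]
    rw [← Finset.sum_subset Finset.subset_union_left fun ρ _ k => ?_, Finset.sum_pair hne]
    refine (mul_comm _ _).trans (e_mul_zero (b1 ρ) (pb_fib I.topc f hc _ fun x => ?_))
    obtain ⟨w, a, b⟩ := (b3 ρ x.1).1 x.2
    exact ⟨_, b, fun o => k (by simpa using oth ρ w a o)⟩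
  · rintro _ a ⟨r, rfl⟩
    exact Finsupp.mem_support_iff.1 a (D.zero r)
  · rw [Multiset.insert_eq_cons, Multiset.insert_eq_cons, Multiset.cons_swap]
    refine D.van I s f hc (fun r => Nat.le_zero.1 (D.zero r ▸ h1.le _)) (fun k e => ?_) _ _ _
    rcases k with _ | k
    · exact h2 (e.trans (zero_smul _ _))
    · exact h1.not_ge (by rw [e, succ_nsmul]; exact le_add_self)
  · obtain ⟨q, a, b⟩ := I.cst _ B wt t s φ [(0, g, _), (0, g, _), (0, _, _)]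
      (List.forall_mem_cons.2 ⟨hg, List.forall_mem_cons.2 ⟨hg,
        List.forall_mem_singleton.2 (f3 _ _ _ _ hp hg).2⟩⟩)
    exact ⟨q, a, b ▸ D.cnt c.1 hc c0 χ hχ⟩

end Vale.Agent.P287Q.As
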