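import Vale.Agent.P287Q.Wg.Defs
import Vale.Agent.P287Q.Lz.TG
import Vale.Agent.P287Q.Lz.Vtx
import Vale.Agent.P287Q.Lz.PkH
import Vale.Agent.P287Q.Top.Bas

/-!
# The localised theory of a variety with an action of the multiplicative group: definitions
-/

set_option linter.unusedSectionVars false

namespace Vale.Agent.P287Q

open Set Function Topology Filter TensorProduct P291Z P269 P269.B P269.Ch P269.Loc P269.LG P269.Lz

variable {n m : ℕ}

/-- Power series in `1 / t`. -/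
noncomputable def ofP : PowerSeries ℂ →ₐ[ℂ] F :=
  { Fock.Hat.ofPS ℂ with commutes' := fun c => Fock.Hat.ofPS_C c }

/-- The scalars. -/
abbrev cst {K : Type} (H : Type) [Field K] [CommRing H] [Algebra K H] : K →+* H := algebraMap K H

/-- The even class `c₁(O(χ))`. -/
noncomputable def Var.le (V : Var n) (χ : V.R → ℤ) : Hev V.X :=
  ⟨V.lc χ, mem_Hev (k := 1) (V.lc_deg χ)⟩

/-- The even classes of type `(p, q)`. -/
noncomputable def Var.TE (V : Var n) (p q : ℤ) : Submodule ℂ (Hev V.X) :=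
  (V.T p q).comap (Hev V.X).val.toLinearMap

namespace TP

variable {B : Var n} {wt : B.J → Unit → ℤ} (t : TP B wt)

instance nice : Nice t.P.X := t.ok.nice_X

instance cpt : CompactSpace t.P.X := t.ok.compact_X

/-- The state space. -/
abbrev HH : Type := F ⊗[ℂ] Hev t.P.X

/-- The inclusion of the fixed locus. -/
noncomputable def j : C(t.P.X, B.X) := t.prs.q.comp (Tq.Eqv.incl (act := t.P.E.actT) TT.fix_sub).qm

/-- The restriction of a class to the fixed locus. -/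
noncomputable def cl (x : Hev B.X) : t.HH := 1 ⊗ₜ Hev.map t.j x

/-- The idempotent of a label. -/
noncomputable def e (ρ : Unit → B.R → ℤ) : t.HH := idE (t.P.XL ρ)

/-- The even classes of type `(p, q)` on the fixed locus. -/
noncomputable def FT (p q : ℤ) : Submodule ℂ (Hev t.P.X) :=
  (Hb.QT t.P.E.actT t.P.Fix p q).comap (Hev t.P.X).val.toLinearMap

/-- The classes of weight `k = p - q`. -/
noncomputable def Ty (k : ℤ) : Submodule F t.HH := (⨆ p, t.FT p (p - k)).baseChange F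

/-- The values of connected fixed maps of genus zero and degree `d` at the marked points. -/
def Im (d : B.R → ℤ) : Set t.P.X :=
  {x | ∃ (ν : Type) (_ : Fintype ν) (m : AM1 B.R t.J ν) (a : ν), t.P.Fx m 0 d ∧ m.Conn ∧
    ∃ h, x = Quo.mk _ ⟨m.vl (m.p (.inl a)), h⟩}

/-- `u` is a biholomorphic map of `V` onto the part of the fixed locus with the label `ρ`. -/
structure Pc (ρ : Unit → B.R → ℤ) (V : Var m) (u : C(V.X, t.P.X)) : Prop where
  inj : Injective u
  rng : range u = t.P.XL ρ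
  hol : Hb.HolM V.A V.pt t.P.Fix (Quo.mk _) u
  loh : ∀ z : t.P.Fix, OvP t.P.E.toWt t.P.wt z.1.2 ρ → ∃ Φ : _ → V.J → ℂ, AnalyticAt ℂ Φ z.1 ∧
    ∀ᶠ y : t.P.Fix in 𝓝 z, ∃ h : Φ y ∈ V.A, u (V.pt ⟨Φ y, h⟩) = Quo.mk _ y

/-- `κ` is the extension by zero along `u`. -/
structure Kp (ρ : Unit → B.R → ℤ) {V : Var m} (u : C(V.X, t.P.X))
    (κ : Hev V.X →ₗ[ℂ] Hev t.P.X) : Prop where
  res : ∀ x, Hev.map u (κ x) = x
  supp : ∀ x, t.e ρ * 1 ⊗ₜ κ x = 1 ⊗ₜ κ x
  ker : ∀ y, pbE u y = 0 ↔ t.e ρ * y = 0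
  ty : ∀ p q, ∀ x ∈ V.TE p q, κ x ∈ t.FT p q
  yt : ∀ p q, ∀ y ∈ t.FT p q, Hev.map u y ∈ V.TE p q

end TP

/-- The weight of the torus. -/
abbrev a₁ : Unit → ℂ := fun _ => 1

/-- The correlator of a family of insertions with the selector `Q`. -/
noncomputable def fx {R J K σ ν : Type} [Fintype R] [Fintype J] [Fintype K] [Fintype σ] [Fintype ν]
    {P : TT R J K σ} (T : Th P) (d : R →₀ ℕ) (Q : AM1 R J ν → Prop)
    (x : ν → ℕ × F ⊗[ℂ] Hev P.X) : F :=
  (T ν 0 fun r => d r).I (inF _ ((T ν 0 fun r => d r).id Q *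
    ∏ a, (T ν 0 fun r => d r).ψ a ^ (x a).1 * pbE ((T ν 0 fun r => d r).ev a) (x a).2))

/-- The localised theory. -/
structure Sy {B : Var n} {wt : B.J → Unit → ℤ} (t : TP B wt) where
  /-- the fixed loci in the moduli spaces -/
  T : Th t.P
  /-- their geometry -/
  G : GeoT t.k t.D a₁ T
  /-- the fixed locus in the target -/
  g : TG t.P a₁
  /-- the lowest level of the Borel construction -/
  b : C(t.P.E.X t.P.E.cone, t.P.XE 0)
  b_mk : ∀ z : t.P.E.cone, ∃ h, b (Quo.mk _ z) = Quo.mk _ ⟨(1, z.1.2), h⟩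
  /-- the numbers -/
  Q : Lz.Pk F t.HH B.R
  η : ∀ x, Q.η x = g.I (inF _ x)
  C : ∀ (ν : Type) [Fintype ν] [DecidableEq ν] (d) (S : Finset ν) (x : ν → ℕ × t.HH),
    Q.C d (S.val.map x) (Sᶜ.val.map x) = fx T d (fun m => m.Conn ∧ Com t.P.E.toWt t.P.wt m S) x
  E : ∀ (ν : Type) [Fintype ν] [Nonempty ν] (d) (x : ν → ℕ × t.HH),
    Q.E d 0 (Finset.univ.val.map x) 0 =
      fx T d (fun m => m.Conn ∧ ∀ z, OnV t.P.E.toWt t.P.wt m z) x
  cC : ∀ (ν : Type) [Fintype ν] (d) (S : Set ν),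
    IsClopen ((T ν 0 d).sel fun m => m.Conn ∧ Com t.P.E.toWt t.P.wt m S)
  cE : ∀ (ν : Type) [Fintype ν] [Nonempty ν] (d),
    IsClopen ((T ν 0 d).sel fun m => m.Conn ∧ ∀ z, OnV t.P.E.toWt t.P.wt m z)

namespace Sy

variable {B : Var n} {wt : B.J → Unit → ℤ} {t : TP B wt} (s : Sy t)

/-- The restrictions of equivariant classes. -/
noncomputable def Λ : Subalgebra ℂ t.HH := Algebra.adjoin ℂ {x | inF _ x ∈ s.g.Gl}

/-- `x` is the restriction of an equivariant lift of `c`. -/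
def Lt (x : t.HH) (c : H B.X) : Prop :=
  ∃ α, Lf s.g.k s.g.i (chiA a₁) α (inF _ x) ∧ H.map s.b (α 0) = t.prs.pb c

/-- The restrictions of equivariant classes of weight `k`. -/
def Tw (k : ℤ) : Set t.HH := {x | ∃ α, Lf s.g.k s.g.i (chiA a₁) α (inF _ x) ∧
  ∀ M, α M ∈ ⨆ p, Hb.QT (t.P.EM M).actT (t.P.EM M).cone p (p - k)}

end Sy

/-- Over the open set `O` the projection `π` is a product with the line `[a : b]`. -/
structure Fib {B : Var (n + 1)} {X : Var n} (π : Ext B X) (ab : Bool → B.J) (O : Set (X.J → ℂ))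
    (φ : (X.J ⊕ Bool → ℂ) → B.J → ℂ) : Prop where
  inj : Injective ab
  blk : ∀ j, B.π j = B.π (ab true) ↔ j ∈ range ab
  off : B.π (ab true) ∉ range π.iR
  opn : ∃ U, IsOpen U ∧ O = X.A ∩ U
  inv : ∀ t, IsUnit t → ∀ x ∈ O, scl X.π t x ∈ O
  ne : O.Nonempty
  gen : Sct (blP Bool X.π) B.π B.A (Sum.elim π.iJ ab) {q | q ∘ .inl ∈ O ∧ q ∘ .inr ≠ 0} φ

end Vale.Agent.P287Q
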