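import Vale.Agent.P287Q.As.St
import Vale.Agent.P287Q.Lz.HVx
import Vale.Agent.P287Q.Pcs.St
import Vale.Agent.P287Q.Pcs.Nef

/-!
# The bare vertex over an end
-/

set_option linter.unusedSectionVars false
set_option maxSynthPendingDepth 3

namespace Vale.Agent.P287Q

open Set Function TensorProduct P291Z P269 P269.B P269.Ch P269.Loc P269.LG P269.Lz

/-- **The twisted invariants lie in the algebra of the untwisted ones.** -/
def As.QR0 : Prop :=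
  ∀ {R J K L H : Type} [Fintype R] [Fintype J] [Fintype K] [DecidableEq R] [CommRing H]
    [Algebra ℂ H] (F : Fam Empty Empty R J K) (k : ℕ) (φ : H →ₐ[ℂ] F.HE) (η : H →ₗ[ℂ] ℂ)
    (H₀ : Subalgebra ℂ H) (N : Submodule ℂ H) (A : (R → ℤ) → Subalgebra ℂ (Module.End ℂ N)),
    F.One k → Bijective φ → (∀ x, η x = F.ηE (φ x)) → (∀ d, Qz.Mu H₀ N (A d)) →
    (∀ d₁ d₂, F.Eff d₁ → F.Eff d₂ → A d₁ ≤ A (d₁ + d₂) ∧ A d₂ ≤ A (d₁ + d₂)) →
    (∀ j, ∃ v ∈ H₀, (φ v).1 = F.lc _ 0 (F.w j)) →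
    (∀ d, (fun s => F.gz k 1 d (s.map (Prod.map id φ))) ∈ Qz.Ty η H₀ N (A d)) →
    ∀ (T : Finset L) b y m d,
      (fun s => F.gz k (Qrr.th T b y m) d (s.map (Prod.map id φ))) ∈ Qz.Ty η H₀ N (A d)

theorem As.QR0.gw (hQ : As.QR0) {R J K L H : Type} [Fintype R] [Fintype J] [Fintype K]
    [DecidableEq R] [CommRing H] [Algebra ℂ H] {F : Fam Empty Empty R J K} {k : ℕ}
    {φ : H →ₐ[ℂ] F.HE} {G : Pcs.Gw H R} (o : F.One k) (hφ : Bijective φ)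
    (hη : ∀ x, G.η x = F.ηE (φ x)) (p : ∀ d, F.Eff d → 0 ≤ d)
    (hl : ∀ j, ∃ v ∈ G.H0, (φ v).1 = F.lc _ 0 (F.w j))
    (hC : ∀ (d : R →₀ ℕ) s, F.gz k 1 (fun r => d r) (s.map (Prod.map id φ)) = G.C d s)
    (T : Finset L) (b y m) (d : R →₀ ℕ) :
    (fun s => F.gz k (Qrr.th T b y m) (fun r => d r) (s.map (Prod.map id φ))) ∈
      Qz.Ty G.η G.H0 (G.T 3 1) (G.alg (G.T 3 1).subtype (Iic d)) := by
  have e : ∀ d : R →₀ ℕ, {d' : R →₀ ℕ | (fun r => (d' r : ℤ)) ≤ fun r => (d r : ℤ)} = Iic d :=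
    fun d => Set.ext fun d' => forall_congr' fun r => Nat.cast_le
  rw [← e]
  refine hQ F k φ G.η G.H0 (G.T 3 1)
    (fun d => G.alg (G.T 3 1).subtype {d' | (fun r => (d' r : ℤ)) ≤ d}) o hφ hη (fun _ => G.mu _)
    (fun d₁ d₂ a c => ⟨Pcs.Gw.alg_mono fun _ u => le_trans u (le_add_of_nonneg_right (p _ c)),
      Pcs.Gw.alg_mono fun _ u => le_trans u (le_add_of_nonneg_left (p _ a))⟩) hl (fun d => ?_)
    T b y m _
  by_cases c : 0 ≤ d
  · obtain ⟨d, rfl⟩ : ∃ d' : R →₀ ℕ, d = fun r => (d' r : ℤ) :=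
      ⟨Finsupp.equivFunOnFinite.symm fun r => (d r).toNat,
        funext fun r => (Int.toNat_of_nonneg (c r)).symm⟩
    rw [funext (hC d), e]
    exact G.mem_ty d
  · rw [show (fun s : Multiset (ℕ × H) => F.gz k 1 d (s.map (Prod.map id φ))) = 0
      from funext fun s => by_contra fun a => c (p _ (o.gz_eff a))]
    exact zero_mem _

namespace Prs

variable {n : ℕ} {V : Var n} (P : Prs V)

theorem map_bij : Bijective (Hev.map P.q) :=
  ⟨Hev.map_injective P.pb_bij.1, Hev.map_surjective P.pb_bij⟩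

theorem ηE_map (x : Hev V.X) : P.F.ηE (Hev.map P.q x) = V.int x.1 :=
  P.qm.J_map V.qm P.hol P.q_bij x.1

theorem gz_one (d) (l : List (ℕ × Hev V.X)) :
    P.F.gz P.k 1 d ((l : Multiset _).map (Prod.map id (Hev.map P.q))) =
      P.gw' d (l.map (Prod.map id Subtype.val)) := by
  rw [Multiset.map_coe, P.one.gz_coe, gw', List.map_map, List.map_map]
  rfl

end Prs

namespace Prs.Gi

variable {V : Var 4} {P : Prs V} {G : Pcs.Gw (Hev V.X) P.R} (h : P.Gi G)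
include h

theorem gz_one (d : P.R →₀ ℕ) (s : Lz.Ms (Hev V.X)) :
    P.F.gz P.k 1 (fun r => d r) (s.map (Prod.map id (Hev.map P.q))) = G.C d s := by
  obtain ⟨l, rfl⟩ := Quot.exists_rep s
  exact (P.gz_one _ l).trans (h.C d l).symm

theorem gz_ty (hQ : As.QR0) (hL : Pcs.L11) (hN : P.Nef) {L : Type} (T : Finset L) (b y m)
    (d : P.R →₀ ℕ) : (fun s => P.F.gz P.k (Qrr.th T b y m) (fun r => d r)
      (s.map (Prod.map id (Hev.map P.q)))) ∈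
      Qz.Ty G.η G.H0 (G.T 3 1) (G.alg (G.T 3 1).subtype (Iic d)) :=
  hQ.gw P.one P.map_bij (fun x => (h.η x).trans (P.ηE_map x).symm)
    (fun _ ⟨_, _, a, _, c, _⟩ r => (hN.deg a r).trans_eq (c.2 r))
    (fun _ => ⟨V.le _, G.mem_Tp ((h.mem 1 1 _).2 (hL _ V _)), (P.lc_eq _).symm⟩) h.gz_one T b y m d

end Prs.Gi

theorem HVE_nef {n m : ℕ} {B : Var n} {wt} {t : TP B wt} {V : Var m} (e : t.End V) : e.prs.Nef :=
  fun z hz r =>
    let ⟨j, a, b⟩ := B.pv.sub (t.tors.maps z (t.P.cone_V e.ρ hz).1) r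
    ⟨t.ι j, a ▸ t.tors.w j, b⟩

theorem HVE_tt {b : ℂ} (hb : b ≠ 0) : b • tt ≠ 0 := fun e => zero_ne_one (α := F) (by
  rw [← HVa.tt_eps, ← one_smul ℂ tt, ← inv_mul_cancel₀ hb, mul_smul, e, smul_zero, zero_mul])

theorem HVE_fam {α : Type} (x : α) (l : Multiset α) : ∃ (n : ℕ) (f : Fin (n + 1) → α), f 0 = x ∧
    ∀ {β : Type} (g : α → β), g x ::ₘ l.map g = Finset.univ.val.map fun a => g (f a) := by
  obtain ⟨l, rfl⟩ := Quot.exists_rep l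
  refine ⟨l.length, (x :: l).get, rfl, fun g => ?_⟩
  rw [Fin.univ_val_map, ← comp_def, ← List.map_ofFn, List.ofFn_get]
  rfl

theorem HVE_map {X Y Z : Type} [TopologicalSpace X] [TopologicalSpace Y] [TopologicalSpace Z]
    {q : C(X, Y)} {u : C(Y, Z)} {i : C(X, Z)} (h : u.comp q = i) (x : Hev Z) (l : Lz.Ms (Hev Z)) :
    ((0, Hev.map u x) ::ₘ l.map (Prod.map id (Hev.map u))).map (Prod.map id (Hev.map q)) =
      (0, Hev.map i x) ::ₘ l.map (Prod.map id (Hev.map i)) := by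
  have e : ∀ y, Hev.map q (Hev.map u y) = Hev.map i y := fun y => h ▸ Hev.map_map _ _ _
  rw [Multiset.map_cons, Multiset.map_map]
  exact congrArg₂ _ (Prod.ext rfl (e x)) (Multiset.map_congr rfl fun a _ => Prod.ext rfl (e a.2))

theorem Sy.vx {n : ℕ} {B : Var n} {wt} {t : TP B wt} (s : Sy t) {ρ j} (E : t.P.End ρ j)
    (hb : t.P.bw ρ j a₁ ≠ 0) (cl : IsClopen (t.P.XL ρ)) (d : B.R →₀ ℕ) (x : Hev t.P.X)
    (l : Lz.Ms (Hev t.P.X)) (hx : t.e ρ * 1 ⊗ₜ x = 1 ⊗ₜ x) :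
    s.Q.E d 0 ((0, 1 ⊗ₜ x) ::ₘ l.map (Prod.map id (1 ⊗ₜ ·))) 0 =
      (t.P.bw ρ j a₁ • tt) ^ (-(∑ r, t.P.w j r * d r + 1)) * ofP (.mk fun m =>
        (t.P.V ρ).E.gz t.k (Qrr.th {j} (fun _ => t.P.bw ρ j a₁) id m) (fun r => d r)
          ((0, Hev.map (t.P.iV ρ) x) ::ₘ l.map (Prod.map id (Hev.map (t.P.iV ρ))))) := by
  obtain ⟨n, f, a, k⟩ := HVE_fam (0, x) l
  have k1 := k (Prod.map id (1 ⊗ₜ · : Hev t.P.X → t.HH))
  have k2 := k (Prod.map id (Hev.map (t.P.iV ρ)))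
  refine (congrArg (s.Q.E d 0 · 0) k1).trans ((s.E _ d _).trans
    (((s.G _ 0 _).vx_gz t.ok E hb (s.cE _ _) cl f 0 (by rw [a]; exact hx)).trans ?_))
  exact congrArg (fun z => _ * ofP (.mk fun m => (t.P.V ρ).E.gz t.k
    (Qrr.th {j} (fun _ => t.P.bw ρ j a₁) id m) (fun r => d r) z)) k2.symm

theorem As.hve (hQ : As.QR0) (hL : Pcs.L11) (hB : As.LBL) : As.HVE := by
  intro B wt t s V e G u hG hu
  have hb : t.P.bw e.ρ e.j₀ a₁ ≠ 0 := fun a => e.hv.mv (funext fun _ => by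
    simpa [TT.bw] using a)
  refine ⟨fun d => (t.P.bw e.ρ e.j₀ a₁ • tt) ^ (-(∑ r, t.P.w e.j₀ r * d r + 1)),
    fun m d l => e.prs.F.gz e.prs.k (Qrr.th {e.j₀} (fun _ => t.P.bw e.ρ e.j₀ a₁) id m)
      (fun r => d r) (l.map (Prod.map id (Hev.map e.prs.q))),
    fun d => zpow_ne_zero _ (HVE_tt hb), fun d l => (congrArg (e.prs.F.gz _ · _ _)
      (Qrr.th_zero _ _ _)).trans (hG.gz_one d l),
    fun m d => hG.gz_ty hQ hL (HVE_nef e) _ _ _ m d, fun d x l hx => ?_⟩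
  simp only [HVE_map hu]
  exact s.vx e.hv hb ((hB _ B wt t).1 _) d x l hx

end Vale.Agent.P287Q
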