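import Vale.Agent.P287Q.As.St
import Vale.Agent.P287Q.Lam.MoB
import Vale.Agent.P287Q.Lam.TC
import Vale.Agent.P287Q.Pcs.Tor

/-! The lattice of equivariant classes. -/

set_option linter.unusedSectionVars false
set_option linter.style.haveILetI false
set_option maxSynthPendingDepth 3

namespace Vale.Agent.P269.Lz.LAMp

open Set Function Topology TensorProduct Vale.Agent.P291Z Vale.Agent.P269.Ch
  Vale.Agent.P269.Orb Vale.Agent.P269.Loc LG

variable {R J K σ : Type} [Fintype R] [Fintype J] [Fintype K] [Fintype σ] [DecidableEq R]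
  [DecidableEq σ] {P : TT R J K σ} {K₀ : RD R} {k D : ℕ} {a : σ → ℂ} (t : TG P a)
  (h : P.Ok K₀ k D)

theorem k_eq : t.k = fun M => (h.lv M).inc (h.lv (M + 1)) :=
  funext fun M => ContinuousMap.ext fun z => by
    obtain ⟨p, y, e, rfl⟩ := h.mk_surj z
    obtain ⟨_, e1⟩ := t.k_mk M p y e
    obtain ⟨_, e2⟩ := h.inc_mk p y e
    exact e1.trans e2.symm

theorem sy (ha : LinearIndependent ℚ a) : haveI := t.nice
    LG.Sy (chiA a) t.k t.i fun M => (h.lv M).b := by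
  haveI := t.nice
  haveI := t.niceX
  haveI := t.cptX
  rw [k_eq t h]
  refine (TC.sy h.lv (chiA_lin_ne ha) h.φ fun M z b => ?_).1
  obtain ⟨z, rfl⟩ := Tq.mk_surj z
  obtain ⟨p, rfl⟩ := isOpenQuotientMap_bp.surjective b
  obtain ⟨_, e⟩ := t.i_mk M z p
  exact (h.i_φ M z p).trans e.symm

theorem isB : haveI := t.nice
    IsB t.k (fun M => (h.lv M).b) (2 * h.dim) fun M => Tq.fnd (P.EM M).actT (P.EM M).cone :=
  k_eq t h ▸ h.isB

theorem intg_base (c : H (P.XE 0)) : intg (Tq.fnd (P.EM 0).actT (P.EM 0).cone) c =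
    intg (Tq.fnd P.E.actT P.E.cone) (H.map (h.lv 0).base c) := by
  haveI := (h.lv 0).nice
  haveI := (h.lv 0).compactSpace
  haveI := h.tc.niceZ
  haveI := h.tc.cZ
  rw [← h.β_eq, ← h.β₀_eq, ← (h.lv 0).res_base, ← intg_push,
    push_res_homeo (h.lv 0).isHomeomorph_base]

end Vale.Agent.P269.Lz.LAMp

namespace Vale.Agent.P287Q.As

open Set Function Topology Filter TensorProduct P291Z P269 P269.B P269.Ch P269.Loc P269.LG P269.Lz

theorem lam : LAM := fun n B wt t s => by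
  have ha : LinearIndependent ℚ a₁ := linearIndependent_unique_iff.2 one_ne_zero
  have e : s.Λ = Mo.Gl s.g.k s.g.i (chiA a₁) := Mo.adjoin_eq
  haveI := s.g.nice
  haveI := t.ok.compact_EM
  have S := LAMp.sy s.g t.ok ha
  have hβ := LAMp.isB s.g t.ok
  rw [e]
  refine ⟨fun _ h => h, s.G.lat t.ok ha s.g (fun _ => t.ok.b_mk) S hβ t.ok.ori s.Q s.η s.C,
    fun x ⟨_, h⟩ => (Mo.int S hβ s.g.loc h).imp fun _ u => (s.η x).trans u.1, Mo.span_Gl S,
    fun _ => Mo.ptE_mem, fun x c ⟨α, h, u⟩ => (Mo.int S hβ s.g.loc h).imp fun _ v =>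
      ⟨(s.η x).trans v.1, v.2.trans ?_⟩⟩
  have f : (t.ok.lv 0).base = s.b := ContinuousMap.ext fun z => by
    obtain ⟨z, rfl⟩ := Tq.mk_surj z
    obtain ⟨_, w⟩ := s.b_mk z
    exact w.symm
  rw [LAMp.intg_base t.ok, f, u, ← t.prs.int_pb]
  exact (t.prs.qm.J_eq_ev _)

end Vale.Agent.P287Q.As
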