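import Vale.Agent.P287Q.Lz.PkE

/-! The algebra of a direct factor of the state space. -/

namespace Vale.Agent.P287Q.As

open TensorProduct Module Function

variable (K : Type) {A B V : Type} [Field K] [Algebra ℂ K] [CommRing A] [Algebra ℂ A] [CommRing B]
  [Algebra ℂ B] [AddCommGroup V] [Module ℂ V]

/-- The restriction. -/
noncomputable abbrev rs (r : A →ₐ[ℂ] B) : K ⊗[ℂ] A →ₐ[K] K ⊗[ℂ] B :=
  Algebra.TensorProduct.map (AlgHom.id K K) r

/-- The extension by zero. -/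
noncomputable def ka (κ : B →ₗ[ℂ] A) : B →ₗ[ℂ] K ⊗[ℂ] A := TensorProduct.mk ℂ K A 1 ∘ₗ κ

theorem ka_apply (κ : B →ₗ[ℂ] A) (x : B) : ka K κ x = 1 ⊗ₜ κ x := rfl

variable {K}

/-- `r` is the projection to the factor `e`, and `κ` is the inclusion. -/
structure Prt (e : K ⊗[ℂ] A) (r : A →ₐ[ℂ] B) (κ : B →ₗ[ℂ] A) : Prop where
  idem : e * e = e
  res : ∀ x, r (κ x) = x
  supp : ∀ x, e * 1 ⊗ₜ κ x = 1 ⊗ₜ κ x
  ker : ∀ y, rs K r y = 0 ↔ e * y = 0

theorem rs_mem {r : A →ₐ[ℂ] B} {M : Submodule ℂ A} {N : Submodule ℂ B} (h : ∀ x ∈ M, r x ∈ N)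
    {y : K ⊗[ℂ] A} (hy : y ∈ M.baseChange K) : rs K r y ∈ N.baseChange K := by
  rw [Submodule.baseChange_eq_span] at hy
  refine (Submodule.span_le (p := (N.baseChange K).comap (rs K r).toLinearMap)).2 ?_ hy
  rintro _ ⟨x, hx, rfl⟩
  exact Submodule.tmul_mem_baseChange_of_mem 1 (h x hx)

namespace Prt

variable {e : K ⊗[ℂ] A} {r : A →ₐ[ℂ] B} {κ : B →ₗ[ℂ] A} (h : Prt e r κ)
include h

theorem rs_ka (x : B) : rs K r (ka K κ x) = 1 ⊗ₜ x := by
  rw [ka_apply, Algebra.TensorProduct.map_tmul, h.res]; rfl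

theorem e_ka (x : B) : e * ka K κ x = ka K κ x := h.supp x

theorem eq_of {y y' : K ⊗[ℂ] A} (a : rs K r y = rs K r y') : e * y = e * y' := by
  rw [← sub_eq_zero, ← mul_sub, ← h.ker, map_sub, a, sub_self]

theorem rs_e : rs K r e = 1 := by
  rw [eq_comm, ← sub_eq_zero, ← map_one (rs K r), ← map_sub, h.ker, mul_sub, h.idem, mul_one,
    sub_self]

theorem eq_ka {y : K ⊗[ℂ] A} {x : B} (a : rs K r y = 1 ⊗ₜ x) : e * y = ka K κ x :=
  (h.eq_of (a.trans (h.rs_ka x).symm)).trans (h.e_ka x)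

theorem ka_one : ka K κ 1 = e := (h.eq_ka (map_one _)).symm.trans (mul_one e)

theorem ka_mul (x : B) (y : A) : ka K κ x * 1 ⊗ₜ y = ka K κ (x * r y) := by
  rw [← h.e_ka, mul_assoc]
  exact h.eq_ka (by rw [map_mul, h.rs_ka]; simp)

theorem ka_mul_ka (x y : B) : ka K κ x * ka K κ y = ka K κ (x * y) :=
  (h.ka_mul x _).trans (by rw [h.res])

theorem rs_lift (ι : V →ₗ[ℂ] B) (z : K ⊗[ℂ] V) :
    rs K r ((ka K κ ∘ₗ ι).liftBaseChange K z) = ι.baseChange K z := by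
  induction z with
  | zero => simp
  | add a b p q => simp only [map_add, p, q]
  | tmul k v => simp [h.rs_ka, smul_tmul']

theorem inj {ι : V →ₗ[ℂ] B} (hι : Injective ι) : Injective ((ka K κ ∘ₗ ι).liftBaseChange K) :=
  fun a b c => Module.Flat.lTensor_preserves_injective_linearMap ι hι
    (((h.rs_lift ι a).symm.trans (congrArg _ c)).trans (h.rs_lift ι b))

theorem ka_inj : Injective (ka K κ) := fun a b c => by
  have := h.inj (ι := .id) injective_id (a₁ := 1 ⊗ₜ a) (a₂ := 1 ⊗ₜ b) (by simpa using c)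
  exact Algebra.TensorProduct.includeRight_injective (algebraMap ℂ K).injective this

theorem e_lift (ι : V →ₗ[ℂ] B) (z : K ⊗[ℂ] V) :
    e * (ka K κ ∘ₗ ι).liftBaseChange K z = (ka K κ ∘ₗ ι).liftBaseChange K z := by
  induction z with
  | zero => simp
  | add a b p q => simp only [map_add, mul_add, p, q]
  | tmul k v => simp [h.e_ka]

theorem mem_range {ι : V →ₗ[ℂ] B} {y : K ⊗[ℂ] A}
    (hy : rs K r y ∈ (LinearMap.range ι).baseChange K) :
    e * y ∈ LinearMap.range ((ka K κ ∘ₗ ι).liftBaseChange K) := by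
  obtain ⟨z, hz⟩ : rs K r y ∈ LinearMap.range (ι.baseChange K) := by
    rw [Submodule.baseChange_eq_span] at hy
    refine Submodule.span_le.2 ?_ hy
    rintro _ ⟨_, ⟨v, rfl⟩, rfl⟩
    exact ⟨1 ⊗ₜ v, rfl⟩
  exact ⟨z, (h.e_lift ι z).symm.trans (h.eq_of ((h.rs_lift ι z).trans hz))⟩

theorem mem_span {ι : V →ₗ[ℂ] B} {y : K ⊗[ℂ] A}
    (hy : rs K r y ∈ (LinearMap.range ι).baseChange K) :
    e * y ∈ Submodule.span K (Set.range (ka K κ ∘ₗ ι)) := by
  have := h.mem_range hy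
  rwa [LinearMap.range_liftBaseChange, LinearMap.coe_range] at this

/-- the dimension of the part of `N` over the factor -/
theorem rank {ι : V →ₗ[ℂ] B} (hι : Injective ι) {N : Submodule K (K ⊗[ℂ] A)}
    (h1 : ∀ y ∈ N, rs K r y ∈ (LinearMap.range ι).baseChange K) (h2 : ∀ v, ka K κ (ι v) ∈ N) :
    finrank K (N.map (LinearMap.mulLeft K e)) = finrank ℂ V := by
  have : N.map (LinearMap.mulLeft K e) = LinearMap.range ((ka K κ ∘ₗ ι).liftBaseChange K) := by
    refine le_antisymm ?_ ?_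
    · rintro _ ⟨y, hy, rfl⟩
      exact h.mem_range (h1 y hy)
    · rw [LinearMap.range_liftBaseChange, Submodule.span_le]
      rintro _ ⟨v, rfl⟩
      exact ⟨_, h2 v, h.e_ka _⟩
  rw [this, LinearMap.finrank_range_of_inj (h.inj hι), Module.finrank_baseChange]

/-- scalars -/
theorem ka_mul_eq {c : B} {y : K ⊗[ℂ] A} {a : K} (k : 1 ⊗ₜ c * rs K r y = a • 1 ⊗ₜ c) :
    ka K κ c * y = a • ka K κ c := by
  rw [← h.e_ka, mul_assoc, ← mul_smul_comm]
  exact h.eq_of (by rw [map_mul, map_smul, h.rs_ka, k])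

end Prt

/-- multiplication by a scalar can be checked on generators -/
theorem mul_eq_smul {c : B} {N : Submodule ℂ B} (z : K ⊗[ℂ] B →ₗ[K] K)
    (h : ∀ x ∈ N, (1 ⊗ₜ (c * x) : K ⊗[ℂ] B) = z (1 ⊗ₜ x) • 1 ⊗ₜ c) {y : K ⊗[ℂ] B}
    (hy : y ∈ N.baseChange K) : 1 ⊗ₜ c * y = z y • 1 ⊗ₜ c := by
  rw [Submodule.baseChange_eq_span] at hy
  induction hy using Submodule.span_induction with
  | mem _ a =>
    obtain ⟨x, hx, rfl⟩ := a
    simpa using h x hx
  | zero => simp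
  | add a b _ _ p q => rw [mul_add, p, q, map_add, add_smul]
  | smul k a _ p => rw [mul_smul_comm, p, map_smul, smul_eq_mul, mul_smul]

end Vale.Agent.P287Q.As
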