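import Vale.Agent.P287Q.As.St
import Vale.Agent.P287Q.As.Prt
import Vale.Agent.P287Q.Top.HG
import Vale.Agent.P287Q.Lz.Ops

/-!
# The parts of the fixed locus and the ends
-/

set_option linter.unusedSectionVars false

namespace Vale.Agent.P287Q.As

open Set Function Module TensorProduct P291Z P269 P269.B P269.Ch P269.Loc P269.LG P269.Lz

/-- The inputs that are common to both theorems. -/
structure Inp : Prop where
  sys : SYS
  lbl : LBL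
  pce : PCE
  pcw : PCW
  pck : PCK
  topc : TOPC
  lam : LAM
  lft : LFT
  typ : TYP
  glob : GLOB
  cst : CST
  mov : MOV
  gi : GI
  hve : HVE
  fib : FIB

variable {n m l : ℕ} {B : Var n} {wt : B.J → Unit → ℤ} {t : TP B wt} {ρ ρ' : Unit → B.R → ℤ}
  {V : Var m} {X : Var l}

theorem TE_bot {p q : ℤ} (h : V.T p q = ⊥) : V.TE p q = ⊥ :=
  eq_bot_iff.2 fun _ a => Subtype.ext (h.le a)

theorem T_out {p q : ℤ} (h : p < 0 ∨ q < 0 ∨ m < p ∨ m < q) : V.T p q = ⊥ := (hgv _ V).out p q h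

theorem T_42 {V : Var 4} (h : V.Hg 2 0 = ⊥) : V.T 4 2 = ⊥ :=
  (hgv _ V).eq_bot_dual ((hgv _ V).eq_bot_swap ((V.T_nat 2 0).trans h))

/-- The classes of type `(2, 0)` as even classes. -/
noncomputable def i20 (V : Var m) : V.Hg 2 0 →ₗ[ℂ] Hev V.X where
  toFun x := ⟨x.1, mem_Hev (k := 1) (V.Hg_deg (p := 2) (q := 0) x.2)⟩
  map_add' _ _ := rfl
  map_smul' _ _ := rfl

theorem i20_inj : Injective (i20 V) := fun _ _ e => Subtype.ext (congrArg (·.1) e)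

theorem i31_inj {V : Var 4} : Injective V.i31 := fun _ _ e => Subtype.ext (congrArg (·.1) e)

theorem i20_mem (v : V.Hg 2 0) : i20 V v ∈ V.TE 2 0 := (V.T_nat 2 0).ge v.2

theorem i31_mem {V : Var 4} (v : V.Hg 3 1) : V.i31 v ∈ V.TE 3 1 := (V.T_nat 3 1).ge v.2

theorem w2_le {p : ℤ} {N : Submodule ℂ (Hev V.X)} (h : ∀ q, q ≠ p → V.T q (q - 2) = ⊥)
    (k : V.TE p (p - 2) ≤ N) : ⨆ q, V.TE q (q - 2) ≤ N :=
  iSup_le fun q => if e : q = p then e ▸ k else TE_bot (h q e) ▸ bot_le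

theorem w2_31 {V : Var 4} (h : V.Hg 2 0 = ⊥) : ⨆ q, V.TE q (q - 2) ≤ LinearMap.range V.i31 :=
  w2_le (p := 3) (fun q e => by
    by_cases a : q = 2
    · subst a
      exact (V.T_nat 2 0).trans h
    by_cases b : q = 4
    · exact b ▸ T_42 h
    · exact T_out (by omega)) fun x a => ⟨⟨_, (V.T_nat 3 1).le a⟩, rfl⟩

theorem w2_20 (h : m ≤ 2) : ⨆ q, V.TE q (q - 2) ≤ LinearMap.range (i20 V) :=
  w2_le (p := 2) (fun _ _ => T_out (by omega)) fun _ a => ⟨⟨_, (V.T_nat 2 0).le a⟩, rfl⟩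

/-- Classes of level zero act on `c` by their values. -/
theorem mul_pp (hT : TOPC) {p q : ℤ} {c : Hev V.X} (hc : c ∈ V.TE p q)
    (h : ∀ r, 0 < r → V.T (p + r) (q + r) = ⊥) (v : V.X) {y : F ⊗[ℂ] Hev V.X}
    (hy : y ∈ (⨆ r, V.TE r (r - 0)).baseChange F) : 1 ⊗ₜ c * y = ptE v y • 1 ⊗ₜ c := by
  refine mul_eq_smul (ptE v).toLinearMap (fun x hx => ?_) hy
  have z : ∀ x : Hev V.X, c * x = 0 → ptE v (1 ⊗ₜ x) = 0 →
      (1 ⊗ₜ (c * x) : F ⊗[ℂ] Hev V.X) = (ptE v).toLinearMap (1 ⊗ₜ x) • 1 ⊗ₜ c := fun x a b => by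
    rw [a, tmul_zero, AlgHom.toLinearMap_apply, b]
    exact (zero_smul F (1 ⊗ₜ c : F ⊗[ℂ] Hev V.X)).symm
  induction hx using Submodule.iSup_induction' with
  | zero => exact z 0 (mul_zero c) (by rw [tmul_zero, map_zero])
  | add a b _ _ i j => rw [mul_add, tmul_add, tmul_add, map_add, add_smul, i, j]
  | mem r x hx =>
    rw [sub_zero] at hx
    obtain ⟨-, -, -, h0, h1, -⟩ := hT _ V
    have d := (hgv _ V).deg _ _ _ hx
    rcases lt_trichotomy r 0 with k | rfl | k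
    · obtain rfl : x = 0 := (TE_bot (T_out (.inl k))).le hx
      exact z 0 (mul_zero c) (by rw [tmul_zero, map_zero])
    · obtain ⟨a, ha⟩ := h0 _ d
      obtain rfl : x = a • 1 := Subtype.ext ha
      simp [← Algebra.TensorProduct.one_def]
    · exact z x (Subtype.ext ((h r k).le ((hgv _ V).mul _ _ _ _ _ hc _ hx)))
        (h1 _ x v d (by omega))

variable (t ρ V) in
/-- A part of the fixed locus with the extension by zero. -/
structure Pa where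
  /-- the inclusion -/
  u : C(V.X, t.P.X)
  /-- the extension by zero -/
  κ : Hev V.X →ₗ[ℂ] Hev t.P.X
  cl : IsClopen (t.P.XL ρ)
  pc : t.Pc ρ V u
  kp : t.Kp ρ u κ

theorem Inp.pa (I : Inp) {u} (h : t.Pc ρ V u) : ∃ a : Pa t ρ V, a.u = u :=
  let ⟨κ, k⟩ := I.pck _ _ B wt t V ρ u ((I.lbl _ B wt t).1 ρ) h
  ⟨⟨u, κ, (I.lbl _ B wt t).1 ρ, h, k⟩, rfl⟩

namespace Pa

variable (a : Pa t ρ V)

/-- The extension by zero. -/
noncomputable def k : Hev V.X →ₗ[ℂ] t.HH := ka F a.κ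

/-- The value at a point. -/
noncomputable def z (v : V.X) : t.HH →ₗ[F] F := (ptE (a.u v)).toLinearMap

/-- The projection of the part. -/
noncomputable def pr (π : Ext B X) : C(V.X, X.X) := π.q.comp (t.j.comp a.u)

theorem prt : Prt (t.e ρ) (Hev.map a.u) a.κ := ⟨idE_mul_self a.cl, a.kp.res, a.kp.supp, a.kp.ker⟩

theorem mem (v : V.X) : a.u v ∈ t.P.XL ρ := a.pc.rng ▸ mem_range_self v

theorem e_k (x : Hev V.X) : t.e ρ * a.k x = a.k x := a.prt.e_ka x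

theorem pb_k (x : Hev V.X) : pbE a.u (a.k x) = 1 ⊗ₜ x := a.prt.rs_ka x

theorem k_inj : Injective a.k := a.prt.ka_inj

theorem k_mul_k (x y : Hev V.X) : a.k x * a.k y = a.k (x * y) := a.prt.ka_mul_ka x y

theorem e_cl (π : Ext B X) (x : Hev X.X) :
    t.e ρ * t.cl (Hev.map π.q x) = a.k (Hev.map (a.pr π) x) :=
  a.prt.eq_ka (congrArg (1 ⊗ₜ ·) ((Hev.map_map _ _ _).trans (Hev.map_map _ _ _)))

theorem z_e (v : V.X) (y : t.HH) : a.z v (t.e ρ * y) = a.z v y :=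
  (map_mul (ptE _) _ _).trans (by rw [TP.e, ptE_idE_mem a.cl (a.mem v), one_mul]; rfl)

theorem pb_Ty {j : ℤ} {y : t.HH} (hy : y ∈ t.Ty j) :
    pbE a.u y ∈ (⨆ p, V.TE p (p - j)).baseChange F :=
  have k : ⨆ p, t.FT p (p - j) ≤ (⨆ p, V.TE p (p - j)).comap (Hev.map a.u).toLinearMap :=
    iSup_le fun p x b => Submodule.mem_comap.2
      (Submodule.mem_iSup_of_mem (p := fun p => V.TE p (p - j)) p (a.kp.yt _ _ x b))
  rs_mem (r := Hev.map a.u) (fun _ hx => k hx) hy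

theorem k_Ty {p j : ℤ} {x : Hev V.X} (hx : x ∈ V.TE p (p - j)) : a.k x ∈ t.Ty j :=
  Submodule.tmul_mem_baseChange_of_mem 1 (Submodule.mem_iSup_of_mem p (a.kp.ty _ _ x hx))

theorem k_top (hT : TOPC) {c : Hev V.X} (hc : H.IsDeg (2 * m) c.1) (v : V.X) (y : t.HH) :
    a.k c * y = a.z v y • a.k c :=
  a.prt.ka_mul_eq (((hT _ V).2.2.2.2.2.1 c v hc _).trans
    (congrArg (· • (1 ⊗ₜ c : F ⊗[ℂ] Hev V.X)) (ptE_pbE a.u v y)))

theorem k_sc (hT : TOPC) {p q : ℤ} {c : Hev V.X} (hc : c ∈ V.TE p q)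
    (h : ∀ r, 0 < r → V.T (p + r) (q + r) = ⊥) (v : V.X) {y : t.HH} (hy : y ∈ t.Ty 0) :
    a.k c * y = a.z v y • a.k c :=
  a.prt.ka_mul_eq ((mul_pp hT hc h v (a.pb_Ty hy)).trans (by rw [ptE_pbE]; rfl))

theorem sc31 {V : Var 4} (a : Pa t ρ V) (hT : TOPC) (h : V.Hg 2 0 = ⊥) (v : V.X) (c : V.Hg 3 1)
    {y : t.HH} (hy : y ∈ t.Ty 0) : a.k (V.i31 c) * y = a.z v y • a.k (V.i31 c) :=
  a.k_sc hT (i31_mem c) (fun r k => if e : r = 1 then by subst e; exact T_42 h else T_out (by omega)) v hy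

theorem sc20 (hT : TOPC) (h : m ≤ 2) (v : V.X) (c : V.Hg 2 0) {y : t.HH} (hy : y ∈ t.Ty 0) :
    a.k (i20 V c) * y = a.z v y • a.k (i20 V c) :=
  a.k_sc hT (i20_mem c) (fun _ _ => T_out (by omega)) v hy

theorem span {U : Type} [AddCommGroup U] [Module ℂ U] {ι : U →ₗ[ℂ] Hev V.X} {j : ℤ}
    (h : ⨆ p, V.TE p (p - j) ≤ LinearMap.range ι) {y : t.HH} (hy : y ∈ t.Ty j) :
    t.e ρ * y ∈ Submodule.span F (range (a.k ∘ₗ ι)) :=
  a.prt.mem_span (Submodule.baseChange_mono _ h (a.pb_Ty hy))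

include a in
theorem rank {U : Type} [AddCommGroup U] [Module ℂ U] {ι : U →ₗ[ℂ] Hev V.X} (hι : Injective ι)
    {p j : ℤ} (h : ⨆ p, V.TE p (p - j) ≤ LinearMap.range ι) (h' : ∀ v, ι v ∈ V.TE p (p - j)) :
    finrank F ((t.Ty j).map (LinearMap.mulLeft F (t.e ρ))) = finrank ℂ U :=
  a.prt.rank hι (fun _ hy => Submodule.baseChange_mono _ h (a.pb_Ty hy)) fun v => a.k_Ty (h' v)

theorem rank31 {V : Var 4} (a : Pa t ρ V) (h : V.Hg 2 0 = ⊥) :
    finrank F ((t.Ty 2).map (LinearMap.mulLeft F (t.e ρ))) = finrank ℂ (V.Hg 3 1) :=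
  a.rank i31_inj (p := 3) (w2_31 h) i31_mem

include a in
theorem rank20 (h : m ≤ 2) :
    finrank F ((t.Ty 2).map (LinearMap.mulLeft F (t.e ρ))) = finrank ℂ (V.Hg 2 0) :=
  a.rank i20_inj (p := 2) (w2_20 h) i20_mem

end Pa

theorem pt_cl (hT : TOPC) (x : t.P.X) (χ : B.R → ℤ) : ptE x (t.cl (B.le χ)) = 0 := by
  rw [TP.cl, ← pbE_tmul, ptE_pbE]
  exact (hT _ B).2.2.2.2.1 2 _ _ (B.lc_deg χ) two_ne_zero

/-- The value of a lift of a line bundle. -/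
theorem pt_res (hT : TOPC) (hρ : IsClopen (t.P.XL ρ)) {x : t.P.X} (hx : x ∈ t.P.XL ρ) {g : t.HH}
    {χ : B.R → ℤ} {c : F} (h : t.e ρ * g = t.e ρ * (t.cl (B.le χ) + cst t.HH c)) :
    ptE x g = c := by
  have := congrArg (ptE x) h
  rwa [map_mul, map_mul, TP.e, ptE_idE_mem hρ hx, one_mul, one_mul, map_add, pt_cl hT, zero_add,
    AlgHom.commutes] at this

theorem e_mul_e (hL : LBL) (h : ρ ≠ ρ') : t.e ρ * t.e ρ' = 0 := by
  obtain ⟨h1, h2, -⟩ := hL _ B wt t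
  rw [TP.e, TP.e, idE_mul (h1 _) (h1 _), ← idE_empty]
  exact congrArg idE (eq_empty_of_forall_notMem fun x k => h ((h2 x).unique k.1 k.2))

theorem ofP_inj : Injective ofP := fun f g e => PowerSeries.ext fun k =>
  (Fock.Hat.co_ofPS (K := ℂ) f k).symm.trans
    ((congrArg (Fock.Hat.co · k) e).trans (Fock.Hat.co_ofPS g k))

variable {B : Var 5} {wt : B.J → Unit → ℤ} {t : TP B wt} {V : Var 4}

/-- An end with its invariants and pieces. -/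
structure En (e : t.End V) extends Pa t e.ρ V where
  /-- the invariants -/
  G : Pcs.Gw (Hev V.X) B.R
  /-- the number of pieces -/
  m : ℕ
  /-- the pieces -/
  π : Fin m → End ℂ (V.Hg 3 1)
  /-- the characters -/
  χ : Fin m → G.alg V.i31 univ →ₐ[ℂ] ℂ
  hu : u.comp e.prs.q = t.P.iV e.ρ
  gi : e.prs.Gi G
  pcs : G.Pieces V.i31 π χ

theorem Inp.en (I : Inp) (e : t.End V) (h : V.Hg 2 0 = ⊥) : Nonempty (En e) := by
  obtain ⟨u, h1, h2⟩ := I.pce _ _ B wt t V e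
  obtain ⟨a, rfl⟩ := I.pa h1
  obtain ⟨G, g⟩ := I.gi B wt t V e h
  obtain ⟨m, π, χ, p⟩ := g.fr.exists_pieces
  exact ⟨⟨a, G, m, π, χ, h2, g, p⟩⟩

namespace En

variable {e : t.End V} (a : En e)

/-- The classes of weight two on the end. -/
noncomputable def j : V.Hg 3 1 →ₗ[ℂ] t.HH := a.k ∘ₗ V.i31

theorem j_u (y : V.A) : ∃ h, t.j (a.u (V.pt y)) = B.pt ⟨e.Φ y ∘ t.ι, h⟩ := by
  have := DFunLike.congr_fun a.hu (Quo.mk _ ⟨_, e.tors.mem y.1 y.2⟩)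
  refine ⟨_, (congrArg (fun x => t.j (a.u (V.pt x))) (Subtype.ext (e.tors.sec y.1 y.2).symm)).trans
    (congrArg t.j this)⟩

theorem ed (I : Inp) (s : Sy t) : ∃ c gz, s.Q.Ed t.Ty a.G V.i31 a.j (1 ⊗ₜ ·) (Hev.map a.u)
    {x | t.e e.ρ * 1 ⊗ₜ x = 1 ⊗ₜ x} ofP c gz Iic := by
  obtain ⟨c, gz, h1, h2, h3, h4⟩ := I.hve B wt t s V e a.G a.u a.gi a.hu
  have tp : a.G.Tp = ⨆ p, V.TE p (p - 0) :=
    iSup_congr fun p => Submodule.ext fun x => by rw [sub_zero]; exact a.gi.T p p x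
  refine ⟨c, gz, a.gi.fr, ofP_inj, h1, h2 0, fun _ a => le_antisymm a zero_le,
    fun d _ _ => ⟨d, h2 d, fun _ a _ b => lt_of_le_of_lt b a⟩,
    fun m d => Lz.PkE_ty a.gi.fr (h3 m d), fun d x hx l => h4 d x l hx, Lz.PkE_top, fun y hy => ?_,
    fun y hy => ⟨a.κ y, ?_, a.kp.res y⟩, fun v => ⟨a.κ _, a.kp.supp _, rfl, a.kp.res _⟩,
    a.k_inj.comp i31_inj, 1, rfl, map_one _⟩
  · exact Lz.PkE_t0 (Hev.map a.u).toLinearMap a.G.Tp (tp ▸ a.pb_Ty hy)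
  · have k : ⨆ p, V.TE p (p - 0) ≤ ((t.Ty 0).restrictScalars ℂ).comap a.k :=
      iSup_le fun p x b => Submodule.mem_comap.2 (a.k_Ty b)
    exact k (tp.le hy)

theorem nd (I : Inp) (s : Sy t) : s.Q.Nd t.Ty a.j a.π :=
  haveI := algebraRat.charZero F
  let ⟨_, _, h⟩ := a.ed I s
  h.nd a.pcs (fun v => a.k_Ty (p := 3) (i31_mem v)) (a.prt.inj i31_inj)

end En

end Vale.Agent.P287Q.As
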