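import Vale.Agent.P287Q.Lz.Pk

/-! The algebra of the pole along the centre. -/

namespace Vale.Agent.P287Q.As

open Lz Multiset

variable {K H R : Type} [Field K] [CommRing H] [Algebra K H] [DecidableEq R] {P : Pk K H R}
  {e₁ e₂ e₃ g w D A A' : H} {z : K} {l : R →₀ ℕ}

theorem pole_eta (he : e₁ + e₂ + e₃ = 1) (h₁ : e₁ * D = 0) (h₂ : e₂ * (w * (g * g * g)) = 0)
    (h₃ : e₃ * w * (g * g * g * D) = z ^ 4 • (e₃ * w)) : w * (g * g * g) * D = z ^ 4 • (e₃ * w) := by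
  linear_combination h₃ + w * (g * g * g) * h₁ + D * h₂ - w * (g * g * g) * D * he

theorem pole_D {c h y : H} (h₁ : e₁ * h = e₁ * (c + y)) (h₂ : e₁ * c = 0) :
    e₁ * (y + (-1 : K) • h) = 0 := by
  rw [neg_one_smul]
  linear_combination -h₁ - h₂

theorem pole_C (he : e₁ + e₂ + e₃ = 1) (v₁ : ∀ x t, P.C l 0 ((0, e₁ * x) ::ₘ t) = 0)
    (v₂ : ∀ t, P.C l 0 ((0, e₂ * (w * (g * g))) ::ₘ t) = 0)
    (h₃ : e₃ * w * (g * g) = z ^ 2 • (e₃ * w))
    (fm : ∀ x y t, P.C l 0 ((0, w * x) ::ₘ (0, y) ::ₘ t) = P.C l 0 ((0, x) ::ₘ (0, w * y) ::ₘ t))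
    (mid : ∀ y x x' t, P.C l 0 ((0, e₃ * y * x) ::ₘ (0, e₃ * x') ::ₘ t) =
      P.C l 0 ((0, e₃ * x) ::ₘ (0, e₃ * y * x') ::ₘ t))
    (hA : e₃ * A = A) (hA' : e₃ * A' = A') (h : A * A' = z ^ 4 • (e₃ * w)) :
    P.C l 0 {(0, g), (0, A), (0, A')} = P.C l 0 {(0, g), (0, g * g), (0, w * (g * g))} := by
  have red : ∀ t, P.C l 0 ((0, w * (g * g)) ::ₘ t) = z ^ 2 * P.C l 0 ((0, w * e₃) ::ₘ t) := fun t => by
    have : w * (g * g) = e₁ * (w * (g * g)) + e₂ * (w * (g * g)) + z ^ 2 • (w * e₃) := by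
      rw [mul_comm w e₃, ← h₃]
      linear_combination -(w * (g * g)) * he
    rw [this, (P.linC₂ l 0 0 t).map_add, (P.linC₂ l 0 0 t).map_add, (P.linC₂ l 0 0 t).map_smul, v₁,
      v₂, zero_add, zero_add, smul_eq_mul]
  have a := mid A 1 A' {(0, g)}
  rw [mul_one, mul_one, hA, hA', h, cons_swap (0, e₃), mul_comm e₃, (P.linC₂ l 0 0 _).map_smul,
    smul_eq_mul] at a
  have b := red {(0, g * g), (0, g)}
  rw [insert_eq_cons, fm e₃, cons_swap (0, e₃), red ((0, e₃) ::ₘ _), ← mul_assoc (z ^ 2),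
    ← pow_add] at b
  simp only [insert_eq_cons, ← cons_zero, cons_swap (0, g)] at a b ⊢
  rw [a, ← b, cons_swap]

theorem vm_span {S : Set H} (h : ∀ a ∈ S, P.VM a) {a : H} (ha : a ∈ Submodule.span K S) :
    P.VM a := fun d i j x y s => by
  rw [cons_swap (i, x)]
  induction ha using Submodule.span_induction with
  | mem a k => rw [h a k, cons_swap]
  | zero => rw [zero_mul, zero_mul, (P.linE₁ d 0 i _ 0).map_zero, (P.linE₁ d 0 j _ 0).map_zero]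
  | add a b _ _ p q =>
    rw [add_mul, add_mul, (P.linE₁ d 0 i _ 0).map_add, (P.linE₁ d 0 j _ 0).map_add, p, q]
  | smul k a _ p =>
    rw [smul_mul_assoc, smul_mul_assoc, (P.linE₁ d 0 i _ 0).map_smul, (P.linE₁ d 0 j _ 0).map_smul, p]

end Vale.Agent.P287Q.As
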