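import Vale.Agent.P287Q.As.C
import Vale.Agent.P287Q.As.Pol0
import Vale.Agent.P269.Mono.WL

/-!
# The pole along the centre
-/

set_option maxSynthPendingDepth 3

namespace Vale.Agent.P287Q

open Set Function Module TensorProduct Polynomial P291Z P269 P269.B P269.Ch P269.Loc P269.LG P269.Lz
  As

theorem As.pbE_idE_zero {A T : Type} [TopologicalSpace A] [TopologicalSpace T] [Nice A] {U : Set A}
    (hU : IsClopen U) (f : C(T, A)) (h : ∀ τ, f τ ∉ U) : pbE f (idE U) = 0 := by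
  have : Nice (Uᶜ : Set A) := Nice.of_isLocallyClosed hU.compl.isClosed.isLocallyClosed
  let i : C((Uᶜ : Set A), A) := ⟨Subtype.val, continuous_subtype_val⟩
  rw [show f = i.comp ⟨fun τ => ⟨f τ, h τ⟩, f.continuous.subtype_mk h⟩ from rfl, ← pbE_pbE,
    pbE_idE i hU, show i ⁻¹' U = ∅ from eq_empty_of_forall_notMem fun x k => x.2 k, idE_empty,
    map_zero]

namespace As

variable {m : ℕ} {B : Var 5} {wt : B.J → Unit → ℤ} {t : TP B wt} {Y V : Var 4} {Z : Var m}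
  {ρ₁ ρ₂ ρ₃ : Unit → B.R → ℤ} {π : Ext B Y} {s : Sy t} {g h : t.HH} {χ χ' : B.R → ℤ} {ω : Hev Y.X}

theorem Pa.exists_ab (b : Pa t ρ₃ Z) (hT : TOPC) (hm : m ≤ 2) (hx : ∃ x ∈ t.Ty 2, t.e ρ₃ * x ≠ 0) :
    m = 2 ∧ ∃ (α : Z.Hg 2 0) (β : Hev Z.X), ∀ x : Hev Z.X, H.IsDeg (2 * m) x.1 →
      ∃ τ : ℂ, x = τ • (i20 Z α * β) := by
  obtain ⟨α, α0⟩ : ∃ α : Z.Hg 2 0, α.1 ≠ 0 := by
    by_contra! k
    obtain ⟨x, hx, h⟩ := hx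
    refine h ((Submodule.span_le (p := ⊥)).2 ?_ (b.span (w2_20 hm) hx))
    rintro _ ⟨v, rfl⟩
    rw [show v = 0 from Subtype.ext (k v), map_zero]
    exact zero_mem _
  have hα := (Z.T_nat 2 0).ge α.2
  obtain rfl : m = 2 := by
    by_contra k
    exact α0 ((T_out (V := Z) (by omega)).le hα)
  obtain ⟨β, hβ, β0⟩ : ∃ β ∈ Z.T 0 2, α.1 * β ≠ 0 := by
    by_contra! k
    exact α0 ((hgv _ Z).nondeg hα fun y hy => by rw [k y hy, map_zero])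
  have dβ := (hgv _ Z).deg _ _ _ hβ
  exact ⟨rfl, α, ⟨β, mem_Hev (k := 1) dβ⟩, fun x d =>
    ((hT _ Z).2.1 _ _ ((Z.Hg_deg α.2).mul dβ) d β0).imp fun _ e => Subtype.ext e⟩

theorem Pa.pb_res (b : Pa t ρ₂ V) (k : t.e ρ₂ * g = t.e ρ₂ * t.cl (B.le χ)) :
    ∃ γ : Hev V.X, H.IsDeg 2 γ.1 ∧ pbE b.u g = 1 ⊗ₜ γ := by
  have := congrArg (pbE b.u) k
  rw [map_mul, map_mul, show pbE b.u (t.e _) = 1 from b.prt.rs_e, one_mul, one_mul] at this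
  exact ⟨_, ((B.lc_deg χ).map _).map _, this⟩

theorem Pa.five (b : Pa t ρ₂ V) (hT : TOPC) (k : t.e ρ₂ * g = t.e ρ₂ * t.cl (B.le χ))
    (d : H.IsDeg 4 ω.1) : t.e ρ₂ * (t.cl (Hev.map π.q ω) * (g * g * g)) = 0 := by
  obtain ⟨γ, dγ, e⟩ := b.pb_res k
  rw [← b.kp.ker, map_mul, map_mul, map_mul, e, TP.cl, pbE_tmul]
  simp only [Algebra.TensorProduct.tmul_mul_tmul]
  rw [show _ * (γ * γ * γ) = 0 from Subtype.ext ((hT _ V).2.2.1 _ _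
    ((((d.map _).map _).map _).mul ((dγ.mul dγ).mul dγ)) (by norm_num)), tmul_zero]

theorem Pa.four (b : Pa t ρ₂ V) (hT : TOPC) (k : t.e ρ₂ * g = t.e ρ₂ * t.cl (B.le χ))
    (d : H.IsDeg 4 ω.1) {o : Hev Y.X} (ho : H.IsDeg (2 * (4 : ℕ)) o.1)
    (h₂ : Hev.map (b.pr π) o ≠ 0) :
    ∃ y, t.e ρ₂ * (t.cl (Hev.map π.q ω) * (g * g)) = t.cl (Hev.map π.q o) * y := by
  obtain ⟨γ, dγ, e⟩ := b.pb_res k
  obtain ⟨k, hk⟩ := (hT _ V).2.1 _ _ (ho.map (b.pr π))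
    ((((d.map π.q).map t.j).map b.u).mul (dγ.mul dγ)) fun e => h₂ (Subtype.ext e)
  refine ⟨k • t.e ρ₂, ?_⟩
  rw [mul_smul_comm, mul_comm _ (t.e _), b.e_cl, ← map_smul]
  refine b.prt.eq_ka ?_
  change pbE b.u _ = _
  rw [map_mul, map_mul, e, TP.cl, pbE_tmul]
  simp only [Algebra.TensorProduct.tmul_mul_tmul, mul_one]
  exact congrArg (1 ⊗ₜ ·) (Subtype.ext hk)

theorem pole_int (I : Inp) (hw : ∀ j, wt (π.iJ j) = 0) (d : H.IsDeg 4 ω.1) (g1 : s.Lt g (B.lc χ))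
    (h1 : s.Lt h (B.lc χ')) (ε : ℂ) : ∃ q : ℂ[X], s.Q.η (t.cl (Hev.map π.q ω) * (g * g * g) *
      (cst t.HH (ε • tt) + (-1 : ℂ) • h)) = aeval tt q ∧ q.coeff 0 = 0 := by
  obtain ⟨-, f2, f3, f4, f5, -⟩ := I.lft _ _ _ t s
  have l0 : s.Lt (cst t.HH (ε • tt)) 0 := by
    have := f4 ε _ _ f2
    rw [smul_zero] at this
    simpa only [Algebra.algebraMap_eq_smul_one, smul_assoc] using this
  obtain ⟨q, q1, q2⟩ := (I.lam _ _ _ t s).2.2.2.2.2 _ _ (f3 _ _ _ _ (f3 _ _ _ _ (f5 _ Y π hw ω)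
    (f3 _ _ _ _ (f3 _ _ _ _ g1 g1).2 g1).2).2 (f3 _ _ _ _ l0 (f4 (-1) _ _ h1)).1).2
  refine ⟨q, q1, q2.trans ?_⟩
  have k := B.lc_deg
  rw [zero_add, mul_smul_comm, map_smul, B.int_deg (by norm_num)
    (((π.pb_deg d).mul (((k χ).mul (k χ)).mul (k χ))).mul (k _)), smul_zero]

theorem pole_gen (I : Inp) (hw : ∀ j, wt (π.iJ j) = 0) (d : H.IsDeg 4 ω.1) (b₂ : Pa t ρ₂ V)
    (b₃ : Pa t ρ₃ Z) (he : t.e ρ₁ + t.e ρ₂ + t.e ρ₃ = 1) (hm : m = 2) (g1 : s.Lt g (B.lc χ))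
    (h1 : s.Lt h (B.lc χ')) {ε : ℂ} (v : Z.X) (g₂ : t.e ρ₂ * g = t.e ρ₂ * t.cl (B.le χ))
    (g₃ : ptE (b₃.u v) g = ε • tt) (h₁ : t.e ρ₁ * (cst t.HH (ε • tt) + (-1 : ℂ) • h) = 0)
    (h₃ : ptE (b₃.u v) h = 0) {l : B.R →₀ ℕ} (sup : ↑l.support ⊆ (range π.iR)ᶜ)
    (v₁ : ∀ x u, s.Q.C l 0 ((0, t.e ρ₁ * x) ::ₘ u) = 0) {o : Hev Y.X}
    (ho : H.IsDeg (2 * (4 : ℕ)) o.1) (h₂ : Hev.map (b₂.pr π) o ≠ 0)
    (v₂ : ∀ x u, s.Q.C l 0 ((0, t.cl (Hev.map π.q o) * x) ::ₘ u) = 0) (hi : Injective (b₃.pr π))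
    (cnt : t.prs.gw' (fun r => l r)
      [(0, B.lc χ), (0, B.lc χ * B.lc χ), (0, π.pb ω.1 * (B.lc χ * B.lc χ))] ≠ 0)
    (hx : ∃ x ∈ t.Ty 2, t.e ρ₃ * x ≠ 0) : ∃ (A A' : t.HH) (q q' : ℂ[X]), A ∈ t.Ty 2 ∧
      t.e ρ₃ * A = A ∧ t.e ρ₃ * A' = A' ∧ s.Q.η (A * A') = aeval tt q ∧ q.coeff 0 = 0 ∧
      s.Q.C l 0 {(0, g), (0, A), (0, A')} = aeval tt q' ∧ q'.coeff 0 ≠ 0 := by
  obtain ⟨-, α, β, k⟩ := b₃.exists_ab I.topc hm.le hx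
  have dz : H.IsDeg (2 * m) (Hev.map (b₃.pr π) ω).1 := by subst hm; exact d.map _
  obtain ⟨τ, hτ⟩ := k _ dz
  have e₃ := b₃.e_cl π ω
  have sc : ∀ y, t.e ρ₃ * t.cl (Hev.map π.q ω) * y =
      ptE (b₃.u v) y • (t.e ρ₃ * t.cl (Hev.map π.q ω)) := fun y => e₃ ▸ b₃.k_top I.topc dz v y
  have AA : ((ε • tt) ^ 4 • τ • b₃.k (i20 _ α)) * b₃.k β =
      (ε • tt) ^ 4 • (t.e ρ₃ * t.cl (Hev.map π.q ω)) := by
    rw [smul_mul_assoc, smul_mul_assoc, b₃.k_mul_k, ← map_smul, e₃, hτ]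
  have eA : t.e ρ₃ * ((ε • tt) ^ 4 • τ • b₃.k (i20 _ α)) = (ε • tt) ^ 4 • τ • b₃.k (i20 _ α) := by
    rw [mul_smul_comm, mul_smul_comm, b₃.e_k]
  obtain ⟨q, q1, q2⟩ := pole_int I hw d g1 h1 ε
  obtain ⟨-, -, f3, -, f5, -⟩ := I.lft _ _ _ t s
  obtain ⟨q', q3, q4⟩ := I.cst _ _ _ t s l [(0, g, _), (0, _, _), (0, _, _)]
    (List.forall_mem_cons.2 ⟨g1, List.forall_mem_cons.2 ⟨(f3 _ _ _ _ g1 g1).2,
      List.forall_mem_singleton.2 (f3 _ _ _ _ (f5 _ Y π hw ω) (f3 _ _ _ _ g1 g1).2).2⟩⟩)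
  obtain ⟨m1, m2⟩ := (I.mov _ _ _ t s).2.2.1 _ Y π
  obtain ⟨y, hy⟩ := b₂.four I.topc g₂ d ho h₂
  refine ⟨_, _, q, q',
    Submodule.smul_mem _ _ (Submodule.smul_of_tower_mem _ _ (b₃.k_Ty (p := 2) (i20_mem α))), eA,
    b₃.e_k β, ?_, q2, (pole_C he v₁ (fun u => hy ▸ v₂ y u) (by rw [sc, map_mul, g₃, sq])
      (fun x y u => (m1 _).ff _ sup 0 0 x y 0 u) (fun y x x' u => m2 _ ?_ _ sup y 0 0 x x' u) eA
      (b₃.e_k β) AA).trans q3, q4 ▸ cnt⟩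
  · rw [AA, ← q1, pole_eta (z := ε • tt) he h₁ (b₂.five I.topc g₂ d)]
    rw [sc, map_mul, map_mul, map_mul, map_add, AlgHom.commutes, g₃, neg_one_smul, map_neg, h₃,
      neg_zero, add_zero, pow_succ, pow_three']
    rfl
  · rintro x hx y hy e
    obtain ⟨x, rfl⟩ := b₃.pc.rng.ge hx
    obtain ⟨y, rfl⟩ := b₃.pc.rng.ge hy
    exact congrArg b₃.u (hi e)

end As

theorem As.lt_single {R : Type} {r : R} {d : R →₀ ℕ} (k : d < Finsupp.single r 1) : d = 0 := by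
  ext a
  by_cases e : a = r
  · by_contra n
    exact k.not_ge (Finsupp.single_le_iff.2 (e ▸ Nat.pos_of_ne_zero n))
  · simpa [e] using k.le a

theorem Ctr.inc_inj {n : ℕ} {Y : Var n} (c : Ctr Y) : Injective c.inc.q := fun x y e => by
  obtain ⟨x, rfl⟩ := c.Z.pt_surj x
  obtain ⟨y, rfl⟩ := c.Z.pt_surj y
  exact c.Z.pt_eq.2 (Y.pt_eq.1 e)

theorem Ctr.lb_inj {n : ℕ} {Y : Var n} (c : Ctr Y) {u v u' v' : ℤ} (h : c.lb u v = c.lb u' v') :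
    u = u' ∧ v = v' := ⟨congrFun (congrFun h ()) none, congrFun (congrFun h ()) (some none)⟩

theorem Ctr.lb_dot {n : ℕ} {Y : Var n} (c : Ctr Y) (u v : ℤ) (χ : Option (Option Y.R) → ℤ) :
    (c.lb u v () - c.lb 0 0 ()) ⬝ᵥ χ = u * χ none + v * χ (some none) := by
  simp [dotProduct, Fintype.sum_option, Ctr.lb]

namespace GB

variable {Y : Var 4} {c : Ctr Y} (a : GB c)

theorem sum_e (hL : LBL) : a.t.e (c.lb 1 1) + a.t.e (c.lb 0 0) + a.t.e (c.lb 1 0) = 1 := by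
  classical
  rw [← As.sum_e (t := a.t) hL (S := {c.lb 1 1, c.lb 0 0, c.lb 1 0}) fun ρ w k => by
    simpa using a.lbl ρ w k, Finset.sum_insert (by simpa using ⟨fun e => by simpa using c.lb_inj e,
      fun e => by simpa using c.lb_inj e⟩), Finset.sum_pair fun e => by simpa using c.lb_inj e,
    add_assoc]

theorem src_t {w} (h : a.t.Lb (c.lb 1 1) w) : w (.inl (.inr true)) ≠ 0 := fun e =>
  let k := (a.src_iff w).1 h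
  k.1.1.2 (funext fun b => by cases b; exacts [k.2, e])

/-- The curves in the exceptional fibres do not meet the source. -/
theorem van_src (I : Inp) (hE : As.EXC) (s : Sy a.t) (x l) :
    s.Q.C (Finsupp.single none 1) 0 ((0, a.t.e (c.lb 1 1) * x) ::ₘ l) = 0 := by
  obtain ⟨l1, -, l3, -⟩ := I.lbl _ _ _ a.t
  have := a.t.nice
  refine (I.mov _ _ _ a.t s).2.2.2 _ _ (fun T _ u hu => pbE_idE_zero (l1 _) u fun τ k => ?_) 0 x l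
  obtain ⟨ν, _, m, b, h1, h2, h3, h4⟩ := hu (mem_range_self τ)
  obtain ⟨w, h5, h6⟩ := (l3 _ _).1 k
  have o := (c.W a.h).pt_eq.1 (h6.symm.trans (congrArg a.t.j h4))
  exact a.src_t h5 ((o.zero_iff _).1 ((hE Y c a).1 ν m _ h1.sol h2 h1.typ
    (fun e => by simpa using congrFun e none) (fun r => by simp) _))

/-- **The pole.** -/
theorem pole (I : Inp) (hE : As.EXC) (s : Sy a.t) {O σ φ ab} (f : Fib (c.pY a.h) ab O σ)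
    (D : Dg a.t (c.pY a.h) ab O φ) (hab : c.Mπ (ab true) = some none) {ρ₁ ρ₂}
    (r₁ : ρ₁ = c.lb 1 1) (r₂ : ρ₂ = c.lb 0 0) (b₂ : Pa a.t ρ₂ c.bl) (b₃ : Pa a.t (c.lb 1 0) c.Z)
    (p₃ : b₃.pr (c.pY a.h) = c.inc.q) {o : Hev Y.X} (ho : H.IsDeg (2 * (4 : ℕ)) o.1)
    (h₂ : Hev.map (b₂.pr (c.pY a.h)) o ≠ 0) {ε : ℂ}
    (hl : ∀ χ, ∃ g, s.Lt g ((c.W a.h).lc χ) ∧ ∀ ρ, a.t.e ρ * g = a.t.e ρ *
      (a.t.cl ((c.W a.h).le χ) + cst a.t.HH ((ε * ((ρ () - c.lb 0 0 ()) ⬝ᵥ χ : ℤ)) • tt)))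
    {g : a.t.HH} (g1 : s.Lt g ((c.W a.h).lc 1)) (g2 : ∀ ρ, a.t.e ρ * g = a.t.e ρ *
      (a.t.cl ((c.W a.h).le 1) + cst a.t.HH ((ε * ((ρ () - c.lb 0 0 ()) ⬝ᵥ 1 : ℤ)) • tt)))
    {V₁ V₂ : Type} {j₁ : V₁ → a.t.HH} {j₂ : V₂ → a.t.HH} (k₁ : ∀ v, a.t.e ρ₁ * j₁ v = j₁ v)
    (k₂ : ∀ v, a.t.e ρ₂ * j₂ v = j₂ v) (hx : ∃ x ∈ a.t.Ty 2, a.t.e (c.lb 1 0) * x ≠ 0) :
    ∃ (l : Option (Option Y.R) →₀ ℕ) (A A' : a.t.HH) (q q' : ℂ[X]),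
      ↑l.support ⊆ ({none} : Set (Option (Option Y.R))) ∧ l ≠ 0 ∧ A ∈ a.t.Ty 2 ∧ a.t.e (c.lb 1 0) * A = A ∧ (∀ v, s.Q.η (j₁ v * A') = 0) ∧
      (∀ v, s.Q.η (j₂ v * A') = 0) ∧ s.Q.η (A * A') = aeval tt q ∧ q.coeff 0 = 0 ∧
      s.Q.C l 0 {(0, g), (0, A), (0, A')} = aeval tt q' ∧ q'.coeff 0 ≠ 0 ∧
      ∀ d, d < l → d ≠ 0 → ∀ y, s.Q.C d 0 {(0, g), (0, A), (0, y)} = 0 := by
  subst r₁ r₂
  obtain ⟨v⟩ := c.Z.conn'.toNonempty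
  obtain ⟨h, h1, h2⟩ := hl (Pi.single (some none) 1)
  have m2 := (b₃.exists_ab I.topc (by have := c.cod; omega) hx).1
  have zero : ∀ {ρ x A'}, ρ ≠ c.lb 1 0 → a.t.e ρ * x = x → a.t.e (c.lb 1 0) * A' = A' →
      s.Q.η (x * A') = 0 := fun k e e' => by
    rw [← e, ← e', mul_mul_mul_comm, e_mul_e I.lbl k, zero_mul, map_zero]
  have nk : ∀ k : ℕ, Finsupp.single none 1 ≠ k • φ := fun k e => by
    have e1 := DFunLike.congr_fun e (some none)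
    have e2 := DFunLike.congr_fun e none
    have e3 : φ (some none) = 1 := hab ▸ D.one
    simp only [Finsupp.smul_apply, e3, smul_eq_mul, mul_one] at e1 e2
    simp [← e1] at e2
  have cnt := (hE Y c a).2 m2
  rw [sq, sq, ← map_mul, ← show (fun r => ((Finsupp.single none 1 : _ →₀ ℕ) r : ℤ)) =
    Pi.single none 1 from funext fun r => by cases r <;> simp] at cnt
  obtain ⟨A, A', q, q', a1, a2, a3, a4, a5, a6, a7⟩ := pole_gen (π := c.pY a.h)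
    (ω := Y.le 1 * Y.le 1) (ε := ε) (l := Finsupp.single none 1) I (fun _ => rfl)
    ((Y.lc_deg 1).mul (Y.lc_deg 1)) b₂ b₃ (a.sum_e I.lbl) m2 g1 h1 v
    ((g2 _).trans (by
      rw [sub_self, zero_dotProduct, Int.cast_zero, mul_zero, zero_smul, map_zero, add_zero])) ((pt_res I.topc b₃.cl (b₃.mem v) (g2 _)).trans (by simp [c.lb_dot]))
    (pole_D (K := ℂ) ((h2 _).trans (by
      rw [c.lb_dot]
      simp only [one_mul, Pi.single_eq_same, Pi.single_eq_of_ne (Option.some_ne_none _).symm,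
        zero_add, Int.cast_one, mul_one]
      rfl))
      ((I.lbl _ _ _ a.t).2.2.2.2.2.2 _ (.inl (.inr true)) fun _ => a.src_t))
    ((pt_res I.topc b₃.cl (b₃.mem v) (h2 _)).trans (by simp [c.lb_dot]))
    (by rintro _ k ⟨r, rfl⟩; simp [Ctr.pY] at k) (a.van_src I hE s) ho h₂
    (D.van I s f ho (fun r => by simp [Ctr.pY]) nk 0) (p₃ ▸ c.inc_inj) cnt hx
  exact ⟨_, A, A', q, q', by simp, by simp, a1, a2,
    fun v => zero (fun e => by simpa using c.lb_inj e) (k₁ v) a3,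
    fun v => zero (fun e => by simpa using c.lb_inj e) (k₂ v) a3, a4, a5, a6, a7,
    fun d k k' => (k' (lt_single k)).elim⟩

end GB

end Vale.Agent.P287Q
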