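import Vale.Agent.P287Q.As.Defs
import Vale.Agent.P287Q.As.End
import Vale.Agent.P287Q.Qz.Alg

/-!
# The inputs of the two theorems on master spaces
-/

namespace Vale.Agent.P287Q.As

open Set Function Topology Filter TensorProduct Polynomial P291Z P269 P269.B P269.Ch P269.Loc
  P269.LG P269.Lz

/-- The localised theory exists. -/
def SYS : Prop := ∀ (n : ℕ) (B : Var n) (wt) (t : TP B wt), Nonempty (Sy t)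

/-- The parts of the fixed locus. -/
def LBL : Prop := ∀ (n : ℕ) (B : Var n) (wt) (t : TP B wt),
  (∀ ρ, IsClopen (t.P.XL ρ)) ∧ (∀ x, ∃! ρ, x ∈ t.P.XL ρ) ∧
  (∀ ρ x, x ∈ t.P.XL ρ ↔ ∃ w, ∃ h : t.Lb ρ w, t.j x = B.pt ⟨w, h.1⟩) ∧ Injective t.j ∧
  (∀ p q, ∀ x ∈ B.TE p q, Hev.map t.j x ∈ t.FT p q) ∧ (∀ ρ, t.e ρ ∈ t.Ty 0) ∧
  ∀ ρ j, (∀ w, t.Lb ρ w → w j ≠ 0) → t.e ρ * t.cl (B.le (Pi.single (B.π j) 1)) = 0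

/-- An end is a part. -/
def PCE : Prop := ∀ (n m : ℕ) (B : Var n) (wt) (t : TP B wt) (V : Var m) (e : t.End V),
  ∃ u, t.Pc e.ρ V u ∧ u.comp e.prs.q = t.P.iV e.ρ

/-- A part given by a coordinate projection. -/
def PCW : Prop := ∀ (n m : ℕ) (B : Var n) (wt) (t : TP B wt) (V : Var m) (ρ) (i : V.J → B.J)
  (r : V.R → B.R), Injective r → (∀ j, B.π (i j) = r (V.π j)) →
  ∀ h : WSct B.π {w | t.Lb ρ w} i V.A, ∃ u, t.Pc ρ V u ∧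
    ∀ w (a : t.Lb ρ w), t.j (u (V.pt ⟨w ∘ i, h.map w a⟩)) = B.pt ⟨w, a.1⟩

/-- Extension by zero. -/
def PCK : Prop := ∀ (n m : ℕ) (B : Var n) (wt) (t : TP B wt) (V : Var m) (ρ u),
  IsClopen (t.P.XL ρ) → t.Pc ρ V u → ∃ κ, t.Kp ρ u κ

/-- Classes of top degree and of degree zero. -/
def TOPC : Prop := ∀ (n : ℕ) (V : Var n), (∃ c : H V.X, H.IsDeg (2 * n) c ∧ c ≠ 0) ∧
  (∀ c c' : H V.X, H.IsDeg (2 * n) c → H.IsDeg (2 * n) c' → c ≠ 0 → ∃ a : ℂ, c' = a • c) ∧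
  (∀ (k : ℤ) (c : H V.X), H.IsDeg k c → 2 * n < k → c = 0) ∧
  (∀ c : H V.X, H.IsDeg 0 c → ∃ a : ℂ, c = a • 1) ∧
  (∀ (k : ℤ) (c : Hev V.X) (x), H.IsDeg k c.1 → k ≠ 0 → ptE x (1 ⊗ₜ c) = 0) ∧
  (∀ (c : Hev V.X) (x), H.IsDeg (2 * n) c.1 → ∀ y : F ⊗[ℂ] Hev V.X,
    1 ⊗ₜ c * y = ptE x y • (1 ⊗ₜ c : F ⊗[ℂ] Hev V.X)) ∧
  ∀ (c : H V.X) (x : V.X) (T : Type) [TopologicalSpace T] (f : C(T, V.X)), H.IsDeg (2 * n) c →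
    x ∉ range f → H.map f c = 0

/-- The lattice of equivariant classes. -/
def LAM : Prop := ∀ (n : ℕ) (B : Var n) (wt) (t : TP B wt) (s : Sy t),
  (∀ x ∈ s.Λ, inF _ x ∈ s.g.Gl) ∧ s.Q.Lat s.Λ.toSubring.toAddSubgroup ∧
  (∀ x ∈ s.Λ, ∃ q : ℂ[X], s.Q.η x = aeval tt q) ∧ Submodule.span F (s.Λ : Set t.HH) = ⊤ ∧
  (∀ x ∈ s.Λ, ∀ a, ∃ q : ℂ[X], ptE a x = aeval tt q) ∧
  ∀ x c, s.Lt x c → ∃ q : ℂ[X], s.Q.η x = aeval tt q ∧ q.coeff 0 = B.int c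

/-- Equivariant lifts. -/
def LFT : Prop := ∀ (n : ℕ) (B : Var n) (wt) (t : TP B wt) (s : Sy t),
  s.Lt 1 1 ∧ s.Lt (cst t.HH tt) 0 ∧
  (∀ x c x' c', s.Lt x c → s.Lt x' c' → s.Lt (x + x') (c + c') ∧ s.Lt (x * x') (c * c')) ∧
  (∀ (a : ℂ) x c, s.Lt x c → s.Lt (a • x) (a • c)) ∧
  (∀ (m : ℕ) (X : Var m) (π : Ext B X), (∀ j, wt (π.iJ j) = 0) → ∀ x : Hev X.X,
    s.Lt (t.cl (Hev.map π.q x)) (π.pb x.1)) ∧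
  ∃ ε : ℂ, ε ≠ 0 ∧ ∀ χ, ∃ h, s.Lt h (B.lc χ) ∧ ∀ ρ, t.e ρ * h =
    t.e ρ * (t.cl (B.le χ) + cst t.HH ((ε * (ρ () ⬝ᵥ χ : ℤ)) • tt))

/-- The weights. -/
def TYP : Prop := ∀ (n : ℕ) (B : Var n) (wt) (t : TP B wt) (s : Sy t),
  ⨆ k, t.Ty k = ⊤ ∧ 1 ∈ t.Ty 0 ∧ (∀ k l, ∀ x ∈ t.Ty k, ∀ y ∈ t.Ty l, x * y ∈ t.Ty (k + l)) ∧
  ∀ k, t.Ty k = Submodule.span F (s.Tw k)

/-- The global correlators respect the weights. -/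
def GLOB : Prop := ∀ (n : ℕ) (B : Var n) (wt) (t : TP B wt) (s : Sy t),
  (∀ k, t.Ty k = Submodule.span F (s.Tw k)) → ∀ d l, Lz.Hm (K := F) t.Ty l → (l.map Prod.fst).sum ≠ 0 →
    s.Q.C d 0 (l.map Prod.snd) = 0

/-- The non-equivariant limit. -/
def CST : Prop := ∀ (n : ℕ) (B : Var n) (wt) (t : TP B wt) (s : Sy t) (d : B.R →₀ ℕ)
  (l : List (ℕ × t.HH × H B.X)), (∀ x ∈ l, s.Lt x.2.1 x.2.2) → ∃ q : ℂ[X],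
    s.Q.C d 0 (l.map fun x => (x.1, x.2.1) :) = aeval tt q ∧
    q.coeff 0 = t.prs.gw' (fun r => d r) (l.map fun x => (x.1, x.2.2))

/-- Classes that move between the markings, classes that are killed. -/
def MOV : Prop := ∀ (n : ℕ) (B : Var n) (wt) (t : TP B wt) (s : Sy t),
  (∀ ρ, s.Q.VM (t.e ρ)) ∧ (∀ w ∈ t.FT 2 0, s.Q.VM (1 ⊗ₜ w)) ∧
  (∀ (m : ℕ) (X : Var m) (π : Ext B X), (∀ x, s.Q.FM (range π.iR)ᶜ (t.cl (Hev.map π.q x))) ∧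
    ∀ ρ, InjOn (fun x => π.q (t.j x)) (t.P.XL ρ) → ∀ d : B.R →₀ ℕ, ↑d.support ⊆ (range π.iR)ᶜ →
      ∀ y i j x x' l, s.Q.C d 0 ((i, t.e ρ * y * x) ::ₘ (j, t.e ρ * x') ::ₘ l) =
        s.Q.C d 0 ((i, t.e ρ * x) ::ₘ (j, t.e ρ * y * x') ::ₘ l)) ∧
  ∀ (d : B.R →₀ ℕ) (y : t.HH), (∀ (T : Type) [TopologicalSpace T] (f : C(T, t.P.X)),
    range f ⊆ t.Im (fun r => d r) → pbE f y = 0) → ∀ i x l, s.Q.C d 0 ((i, y * x) ::ₘ l) = 0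

/-- The package of invariants of an end. -/
def GI : Prop := ∀ (B : Var 5) (wt) (t : TP B wt) (V : Var 4) (e : t.End V), V.Hg 2 0 = ⊥ →
  ∃ G, e.prs.Gi G

/-- The bare vertex over an end. -/
def HVE : Prop := ∀ (B : Var 5) (wt) (t : TP B wt) (s : Sy t) (V : Var 4) (e : t.End V)
  (G : Pcs.Gw (Hev V.X) B.R) (u : C(V.X, t.P.X)), e.prs.Gi G → u.comp e.prs.q = t.P.iV e.ρ →
  ∃ (c : (B.R →₀ ℕ) → F) (gz : ℕ → (B.R →₀ ℕ) → Lz.Ms (Hev V.X) → ℂ), (∀ d, c d ≠ 0) ∧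
    (∀ d l, gz 0 d l = G.C d l) ∧
    (∀ m d, gz m d ∈ Qz.Ty G.η G.H0 (G.T 3 1) (G.alg (G.T 3 1).subtype (Iic d))) ∧
    ∀ d (x : Hev t.P.X) (l : Lz.Ms (Hev t.P.X)), t.e e.ρ * 1 ⊗ₜ x = 1 ⊗ₜ x →
      s.Q.E d 0 ((0, 1 ⊗ₜ x) ::ₘ l.map (Prod.map id (1 ⊗ₜ ·))) 0 = c d * ofP (.mk fun m =>
        gz m d ((0, Hev.map u x) ::ₘ l.map (Prod.map id (Hev.map u))))

/-- Curves in the general fibre. -/
def FIB : Prop := ∀ (n : ℕ) (B : Var (n + 1)) (X : Var n) (wt) (t : TP B wt) (π : Ext B X) (ab O σ),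
  Fib π ab O σ → ∃ φ : B.R →₀ ℕ, φ (B.π (ab true)) = 1 ∧ (∀ r, φ (π.iR r) = 0) ∧
    (∀ (ν : Type) [Fintype ν] (m : AM1 B.R t.J ν) (d : B.R → ℤ), m.Sol t.P.E → m.Conn → m.Typ 0 d →
      (∀ r, d (π.iR r) = 0) → ∀ z, (m.vl z).2 ∘ t.ι ∘ π.iJ ∈ O → ∃ k : ℕ, d = fun r => (k * φ r : ℤ)) ∧
    ∀ c : H X.X, H.IsDeg (2 * n) c → c ≠ 0 → ∀ χ : B.R → ℤ, (χ ⬝ᵥ fun r => φ r) ≠ 0 →
      t.prs.gw' (fun r => φ r) [(0, B.lc χ), (0, B.lc χ), (0, π.pb c * B.lc χ)] ≠ 0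

/-- Curves in the exceptional fibres. -/
def EXC : Prop := ∀ (Y : Var 4) (c : Ctr Y) (a : GB c),
  (∀ (ν : Type) [Fintype ν] (m : AM1 _ a.t.J ν) (d : Option (Option Y.R) → ℤ), m.Sol a.t.P.E →
    m.Conn → m.Typ 0 d → d ≠ 0 → (∀ r, d (some r) = 0) → ∀ z,
      (m.vl z).2 (a.t.ι (.inl (.inr true))) = 0) ∧
  (c.m = 2 → a.t.prs.gw' (Pi.single none 1) [(0, (c.W a.h).lc 1), (0, (c.W a.h).lc 1 ^ 2),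
    (0, (c.pY a.h).pb (Y.lc 1) ^ 2 * (c.W a.h).lc 1 ^ 2)] ≠ 0)

/-- The classes of type `(3, 1)` on a blow-up. -/
def BLD : Prop := ∀ (V : Var 4) (c : Ctr V), Module.finrank ℂ (c.bl.Hg 3 1) =
  Module.finrank ℂ (V.Hg 3 1) + Module.finrank ℂ (c.Z.Hg 2 0)

end Vale.Agent.P287Q.As
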